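import Mathlib

/-! Basic maps of the two-torus for the odometer realisation (P109). -/

open MeasureTheory Filter Topology Set
open scoped ContDiff

namespace Vale.Agent.P109

abbrev T1 := UnitAddCircle
abbrev T2 := UnitAddCircle × UnitAddCircle
abbrev R2 := ℝ × ℝ

/-- The covering map of the torus. -/
noncomputable def proj : R2 → T2 := Prod.map QuotientAddGroup.mk QuotientAddGroup.mk

lemma proj_apply (p : R2) : proj p = ((p.1 : T1), (p.2 : T1)) := rfl

lemma proj_open : IsOpenQuotientMap proj :=
  IsOpenQuotientMap.prodMap QuotientAddGroup.isOpenQuotientMap_mk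
    QuotientAddGroup.isOpenQuotientMap_mk

lemma proj_surj : Function.Surjective proj := proj_open.surjective

lemma continuous_proj : Continuous proj := proj_open.continuous

lemma proj_add (a b : R2) : proj (a + b) = proj a + proj b := by
  simp only [proj_apply, Prod.fst_add, Prod.snd_add, AddCircle.coe_add, Prod.mk_add_mk]

/-- The integer lattice. -/
def IsInt (m : R2) : Prop := ∃ a b : ℤ, m = ((a : ℝ), (b : ℝ))

lemma proj_int {m : R2} (hm : IsInt m) : proj m = 0 := by
  obtain ⟨a, b, rfl⟩ := hm
  simp only [proj_apply, Prod.mk_eq_zero, AddCircle.coe_eq_zero_iff]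
  exact ⟨⟨a, by simp⟩, ⟨b, by simp⟩⟩

lemma proj_add_int (p : R2) {m : R2} (hm : IsInt m) : proj (p + m) = proj p := by
  rw [proj_add, proj_int hm, add_zero]

lemma proj_eq_iff {a b : R2} : proj a = proj b ↔ IsInt (a - b) := by
  constructor
  · intro h
    simp only [proj_apply, Prod.mk.injEq] at h
    obtain ⟨h1, h2⟩ := h
    have e1 : ((a.1 - b.1 : ℝ) : T1) = 0 := by rw [AddCircle.coe_sub, h1, sub_self]
    have e2 : ((a.2 - b.2 : ℝ) : T1) = 0 := by rw [AddCircle.coe_sub, h2, sub_self]
    rw [AddCircle.coe_eq_zero_iff] at e1 e2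
    obtain ⟨n1, hn1⟩ := e1
    obtain ⟨n2, hn2⟩ := e2
    refine ⟨n1, n2, ?_⟩
    simp only [zsmul_one] at hn1 hn2
    exact Prod.ext hn1.symm hn2.symm
  · intro h
    have : a = b + (a - b) := by abel
    rw [this, proj_add_int _ h]

lemma exists_rep (z : T2) : ∃ p : R2, proj p = z ∧ p.1 ∈ Ico (0:ℝ) 1 ∧ p.2 ∈ Ico (0:ℝ) 1 := by
  obtain ⟨p, hp⟩ := proj_surj z
  refine ⟨(Int.fract p.1, Int.fract p.2), ?_, ⟨Int.fract_nonneg _, Int.fract_lt_one _⟩,
    ⟨Int.fract_nonneg _, Int.fract_lt_one _⟩⟩
  rw [← hp, proj_eq_iff]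
  exact ⟨-⌊p.1⌋, -⌊p.2⌋, Prod.ext (by simp [← Int.self_sub_floor]) (by simp [← Int.self_sub_floor])⟩

/-- A continuous family of integer points is constant. -/
lemma int_path_const {f : ℝ → R2} (hf : Continuous f) (h : ∀ t, IsInt (f t)) (s t : ℝ) :
    f s = f t := by
  have key : ∀ g : ℝ → ℝ, Continuous g → (∀ t, ∃ a : ℤ, g t = a) → g s = g t := by
    intro g hg hint
    choose z hz using hint
    have hzc : Continuous z := by
      apply Int.isClosedEmbedding_coe_real.isInducing.continuous_iff.2
      have : (Int.cast ∘ z : ℝ → ℝ) = g := funext fun t => (hz t).symm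
      rw [this]; exact hg
    rw [hz, hz, PreconnectedSpace.constant inferInstance hzc (x := s) (y := t)]
  refine Prod.ext (key (fun u => (f u).1) (by fun_prop) ?_) (key (fun u => (f u).2) (by fun_prop) ?_)
  · intro u; obtain ⟨a, b, hab⟩ := h u; exact ⟨a, by simp [hab]⟩
  · intro u; obtain ⟨a, b, hab⟩ := h u; exact ⟨b, by simp [hab]⟩

/-- A smooth volume-preserving diffeomorphism of the torus, with lifts. -/
structure TDiffeo where
  F : R2 → R2
  G : R2 → R2
  smoothF : ContDiff ℝ ∞ F
  smoothG : ContDiff ℝ ∞ G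
  FG : ∀ p, F (G p) = p
  GF : ∀ p, G (F p) = p
  e : T2 ≃ₜ T2
  hF : ∀ p, proj (F p) = e (proj p)
  mp : MeasurePreserving e volume volume

namespace TDiffeo

lemma hG (D : TDiffeo) (p : R2) : proj (D.G p) = D.e.symm (proj p) := by
  rw [eq_comm, Homeomorph.symm_apply_eq, ← D.hF, D.FG]

noncomputable def refl : TDiffeo where
  F := id
  G := id
  smoothF := contDiff_id
  smoothG := contDiff_id
  FG _ := rfl
  GF _ := rfl
  e := Homeomorph.refl _
  hF _ := rfl
  mp := MeasurePreserving.id _

/-- `D.comp E` applies `E` first. -/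
noncomputable def comp (D E : TDiffeo) : TDiffeo where
  F := D.F ∘ E.F
  G := E.G ∘ D.G
  smoothF := D.smoothF.comp E.smoothF
  smoothG := E.smoothG.comp D.smoothG
  FG p := by simp [D.FG, E.FG]
  GF p := by simp [D.GF, E.GF]
  e := E.e.trans D.e
  hF p := by simp [D.hF, E.hF]
  mp := D.mp.comp E.mp

noncomputable def symm (D : TDiffeo) : TDiffeo where
  F := D.G
  G := D.F
  smoothF := D.smoothG
  smoothG := D.smoothF
  FG := D.GF
  GF := D.FG
  e := D.e.symm
  hF := D.hG
  mp := MeasurePreserving.symm D.e.toMeasurableEquiv D.mp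

end TDiffeo

/-- Descend a periodic function to the circle. -/
lemma descend {f : ℝ → ℝ} (hf : Continuous f) (m : ℤ) (h : ∀ x, f (x + 1) = f x + m) :
    ∃ φ : C(T1, T1), ∀ x : ℝ, φ (x : T1) = (f x : T1) := by
  have hper : Function.Periodic (fun x => (f x : T1)) 1 := by
    intro x
    simp only
    rw [h, AddCircle.coe_add]
    have : ((m : ℝ) : T1) = 0 := (AddCircle.coe_eq_zero_iff (1:ℝ)).2 ⟨m, by simp⟩
    rw [this, add_zero]
  refine ⟨⟨hper.lift, ?_⟩, fun x => hper.lift_coe x⟩
  rw [← QuotientAddGroup.isOpenQuotientMap_mk.continuous_comp_iff]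
  have : (hper.lift ∘ (QuotientAddGroup.mk : ℝ → T1)) = fun x => (f x : T1) :=
    funext fun x => hper.lift_coe x
  rw [this]
  exact (AddCircle.continuous_mk' 1).comp hf

lemma ae_map_add (a : T1) : Measure.map (fun c => c + a) (volume : Measure T1) = volume :=
  map_add_right_eq_self volume a

/-- Translation. -/
noncomputable def transl (v : R2) : TDiffeo where
  F p := p + v
  G p := p - v
  smoothF := contDiff_id.add contDiff_const
  smoothG := contDiff_id.sub contDiff_const
  FG p := by simp
  GF p := by simp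
  e := Homeomorph.addRight (proj v)
  hF p := by simp [proj_add]
  mp := (measurePreserving_add_right (volume : Measure T1) (proj v).1).prod
    (measurePreserving_add_right (volume : Measure T1) (proj v).2)

/-- Shear `(x, y) ↦ (x + f y, y)`. -/
noncomputable def shear (f : ℝ → ℝ) (hf : ContDiff ℝ ∞ f) (φ : C(T1, T1))
    (hφ : ∀ x : ℝ, φ (x : T1) = (f x : T1)) : TDiffeo where
  F p := (p.1 + f p.2, p.2)
  G p := (p.1 - f p.2, p.2)
  smoothF := (contDiff_fst.add (hf.comp contDiff_snd)).prodMk contDiff_snd
  smoothG := (contDiff_fst.sub (hf.comp contDiff_snd)).prodMk contDiff_snd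
  FG p := by simp
  GF p := by simp
  e :=
    { toFun := fun z => (z.1 + φ z.2, z.2)
      invFun := fun z => (z.1 - φ z.2, z.2)
      left_inv := fun z => by simp
      right_inv := fun z => by simp
      continuous_toFun := by fun_prop
      continuous_invFun := by fun_prop }
  hF p := by simp [proj_apply, hφ]
  mp := by
    have h1 : MeasurePreserving (fun p : T1 × T1 => (p.1, p.2 + φ p.1))
        (volume.prod volume) (volume.prod volume) := by
      refine (MeasurePreserving.id volume).skew_product (g := fun a c => c + φ a) ?_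
        (Eventually.of_forall fun a => ae_map_add (φ a))
      exact (continuous_snd.add (φ.continuous.comp continuous_fst)).measurable
    exact (Measure.measurePreserving_swap.comp h1).comp Measure.measurePreserving_swap

/-- The map `(x, y) ↦ (f x - y, x)`. -/
noncomputable def henon (f : ℝ → ℝ) (hf : ContDiff ℝ ∞ f) (φ : C(T1, T1))
    (hφ : ∀ x : ℝ, φ (x : T1) = (f x : T1)) : TDiffeo where
  F p := (f p.1 - p.2, p.1)
  G p := (p.2, f p.2 - p.1)
  smoothF := ((hf.comp contDiff_fst).sub contDiff_snd).prodMk contDiff_fst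
  smoothG := contDiff_snd.prodMk ((hf.comp contDiff_snd).sub contDiff_fst)
  FG p := by simp
  GF p := by simp
  e :=
    { toFun := fun z => (φ z.1 - z.2, z.1)
      invFun := fun z => (z.2, φ z.2 - z.1)
      left_inv := fun z => by simp
      right_inv := fun z => by simp
      continuous_toFun := by fun_prop
      continuous_invFun := by fun_prop }
  hF p := by simp [proj_apply, hφ]
  mp := by
    have h1 : MeasurePreserving (fun p : T1 × T1 => (p.1, φ p.1 - p.2))
        (volume.prod volume) (volume.prod volume) := by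
      refine (MeasurePreserving.id volume).skew_product (g := fun a c => φ a - c) ?_
        (Eventually.of_forall fun a => ?_)
      · exact ((φ.continuous.comp continuous_fst).sub continuous_snd).measurable
      · have : (fun c : T1 => φ a - c) = (fun c => c + φ a) ∘ (fun c => -c) := by
          funext c; simp [sub_eq_neg_add]
        rw [this, ← Measure.map_map (by fun_prop) (by fun_prop), Measure.map_neg_eq_self]
        exact ae_map_add (φ a)
    exact Measure.measurePreserving_swap.comp h1

end Vale.Agent.P109
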