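import Mathlib
import Vale.Agent.P109.Torus

/-! Smoothed staircases and the refining map (P109). -/

open MeasureTheory Filter Topology Set
open scoped ContDiff

namespace Vale.Agent.P109

/-- Smoothed floor function. -/
noncomputable def stair (δ : ℝ) (t : ℝ) : ℝ :=
  (⌊t⌋ : ℝ) + Real.smoothTransition ((Int.fract t - (1 - δ)) / (δ / 2))

lemma stair_add_int (δ : ℝ) (t : ℝ) (m : ℤ) : stair δ (t + m) = stair δ t + m := by
  simp only [stair, Int.floor_add_intCast, Int.fract_add_intCast, Int.cast_add]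
  ring

lemma stair_flat {δ t : ℝ} (hδ : 0 < δ) (h : Int.fract t ≤ 1 - δ) : stair δ t = ⌊t⌋ := by
  have h' : (Int.fract t - (1 - δ)) / (δ / 2) ≤ 0 :=
    div_nonpos_of_nonpos_of_nonneg (by linarith) (by linarith)
  rw [stair, Real.smoothTransition.zero_of_nonpos h', add_zero]

lemma stair_smooth {δ : ℝ} (hδ : 0 < δ) (hδ1 : δ < 1) : ContDiff ℝ ∞ (stair δ) := by
  rw [contDiff_iff_contDiffAt]
  intro t
  set m : ℤ := ⌊t⌋
  have hm1 := Int.floor_le t
  have hm2 := Int.lt_floor_add_one t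
  have hU : Ioo ((m:ℝ) - δ / 4) ((m:ℝ) + 1) ∈ 𝓝 t :=
    Ioo_mem_nhds (by simp only [m]; linarith) (by simp only [m]; linarith)
  have hlocal : ∀ s ∈ Ioo ((m:ℝ) - δ / 4) ((m:ℝ) + 1),
      stair δ s = m + Real.smoothTransition ((s - m - (1 - δ)) / (δ / 2)) := by
    rintro s ⟨hs1, hs2⟩
    rcases le_or_gt (m:ℝ) s with hle | hlt
    · have : ⌊s⌋ = m := Int.floor_eq_iff.2 ⟨hle, hs2⟩
      rw [stair, ← Int.self_sub_floor, this]
    · have hf : ⌊s⌋ = m - 1 := Int.floor_eq_iff.2 ⟨by push_cast; linarith, by push_cast; linarith⟩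
      rw [stair, ← Int.self_sub_floor, hf]
      rw [Real.smoothTransition.one_of_one_le, Real.smoothTransition.zero_of_nonpos]
      · push_cast; ring
      · exact div_nonpos_of_nonpos_of_nonneg (by linarith) (by linarith)
      · rw [le_div_iff₀ (by linarith)]; push_cast; linarith
  refine ContDiffAt.congr_of_eventuallyEq ?_ (eventually_of_mem hU hlocal)
  exact contDiffAt_const.add (Real.smoothTransition.contDiff.contDiffAt.comp t
    (((contDiffAt_id.sub contDiffAt_const).sub contDiffAt_const).div_const _))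

/-- The first shear profile: smoothed `⌊q y⌋ mod q`, divided by `N`. -/
noncomputable def tauFun (q N : ℕ) (δ : ℝ) (y : ℝ) : ℝ :=
  (stair δ ((q:ℝ) * y) - (q:ℝ) * stair (δ / q) y) / N

/-- The second profile: smoothed `(⌊N x⌋ + 1) / q`. -/
noncomputable def sigFun (q N : ℕ) (δ : ℝ) (x : ℝ) : ℝ := (stair δ ((N:ℝ) * x) + 1) / q

lemma tauFun_smooth {q N : ℕ} {δ : ℝ} (hq : 0 < q) (hδ : 0 < δ) (hδ1 : δ < 1) :
    ContDiff ℝ ∞ (tauFun q N δ) := by
  have hq' : (1:ℝ) ≤ q := by exact_mod_cast hq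
  have h1 : δ / q < 1 := by rw [div_lt_one (by linarith)]; linarith
  exact (((stair_smooth hδ hδ1).comp (contDiff_const.mul contDiff_id)).sub
    (contDiff_const.mul (stair_smooth (div_pos hδ (by linarith)) h1))).div_const _

lemma sigFun_smooth {q N : ℕ} {δ : ℝ} (hδ : 0 < δ) (hδ1 : δ < 1) :
    ContDiff ℝ ∞ (sigFun q N δ) :=
  (((stair_smooth hδ hδ1).comp (contDiff_const.mul contDiff_id)).add contDiff_const).div_const _

lemma tauFun_per (q N : ℕ) (δ y : ℝ) : tauFun q N δ (y + 1) = tauFun q N δ y + (0:ℤ) := by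
  unfold tauFun
  have h1 : (q:ℝ) * (y + 1) = (q:ℝ) * y + ((q:ℤ):ℝ) := by push_cast; ring
  have h2 : y + 1 = y + ((1:ℤ):ℝ) := by simp
  rw [h1, stair_add_int, h2, stair_add_int]
  push_cast; ring

lemma sigFun_per {q N : ℕ} (hq : 0 < q) (hd : q ∣ N) (δ x : ℝ) :
    sigFun q N δ (x + 1) = sigFun q N δ x + ((N / q : ℕ) : ℤ) := by
  obtain ⟨k, rfl⟩ := hd
  rw [Nat.mul_div_cancel_left k hq]
  unfold sigFun
  have h1 : ((q * k : ℕ) : ℝ) * (x + 1) = ((q * k : ℕ):ℝ) * x + (((q * k : ℕ) : ℤ):ℝ) := by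
    push_cast; ring
  rw [h1, stair_add_int]
  have hq' : (q:ℝ) ≠ 0 := by positivity
  push_cast; field_simp; ring

/-- Smoothing parameter of stage `j`. -/
noncomputable def dl (j : ℕ) : ℝ := (1/2 : ℝ) ^ (j + 1)

lemma dl_pos (j : ℕ) : 0 < dl j := by unfold dl; positivity

lemma dl_lt_one (j : ℕ) : dl j < 1 := by
  unfold dl; exact pow_lt_one₀ (by norm_num) (by norm_num) (by omega)

/-- The map refining the `q`-tower into the `N`-tower. -/
noncomputable def gmap (q N : ℕ) (hq : 0 < q) (hd : q ∣ N) (j : ℕ) : TDiffeo :=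
  let ht := tauFun_smooth (N := N) hq (dl_pos j) (dl_lt_one j)
  let hs := sigFun_smooth (q := q) (N := N) (dl_pos j) (dl_lt_one j)
  let φt := descend ht.continuous 0 (tauFun_per q N (dl j))
  let φs := descend hs.continuous ((N / q : ℕ) : ℤ) (sigFun_per hq hd (dl j))
  (henon _ hs φs.choose φs.choose_spec).comp (shear _ ht φt.choose φt.choose_spec)

lemma gmap_F (q N : ℕ) (hq : 0 < q) (hd : q ∣ N) (j : ℕ) (p : R2) :
    (gmap q N hq hd j).F p =
      (sigFun q N (dl j) (p.1 + tauFun q N (dl j) p.2) - p.2, p.1 + tauFun q N (dl j) p.2) := rfl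

lemma gmap_step (q N : ℕ) (hq : 0 < q) (hd : q ∣ N) (hN : 0 < N) (j : ℕ) (p : R2) :
    (gmap q N hq hd j).F (p + (1 / (N:ℝ), 0)) =
      (gmap q N hq hd j).F p + (1 / (q:ℝ), 1 / (N:ℝ)) := by
  have hN' : (N:ℝ) ≠ 0 := by positivity
  rw [gmap_F, gmap_F]
  simp only [Prod.fst_add, Prod.snd_add, add_zero, Prod.mk_add_mk]
  refine Prod.ext ?_ (by simp only; ring)
  simp only [sigFun]
  have : (N:ℝ) * (p.1 + 1 / (N:ℝ) + tauFun q N (dl j) p.2)
      = (N:ℝ) * (p.1 + tauFun q N (dl j) p.2) + ((1:ℤ):ℝ) := by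
    push_cast; field_simp; ring
  rw [this, stair_add_int]
  push_cast; ring

/-- On good points the refining map is an exact piecewise translation. -/
lemma gmap_good (q N : ℕ) (hq : 0 < q) (hd : q ∣ N) (hN : 0 < N) (j : ℕ) {x y : ℝ}
    (hx : Int.fract ((N:ℝ) * x) ≤ 1 - dl j) (hy : Int.fract ((q:ℝ) * y) ≤ 1 - dl j) :
    (gmap q N hq hd j).F (x, y) =
      (((⌊(N:ℝ) * x⌋ + (⌊(q:ℝ) * y⌋ - (q:ℤ) * ⌊y⌋) + 1 : ℤ) : ℝ) / q - y,
        x + ((⌊(q:ℝ) * y⌋ - (q:ℤ) * ⌊y⌋ : ℤ) : ℝ) / N) := by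
  have hN' : (N:ℝ) ≠ 0 := by positivity
  have hqpos : (0:ℝ) < q := by exact_mod_cast hq
  have hyf : Int.fract y ≤ 1 - dl j / q := by
    by_contra hcon
    push Not at hcon
    have hdl := dl_pos j
    have h1 := Int.fract_lt_one y
    have hfy : (⌊(q:ℝ) * y⌋ : ℤ) = (q:ℤ) * ⌊y⌋ + (q - 1) := by
      rw [Int.floor_eq_iff]
      have e : (q:ℝ) * y = q * ⌊y⌋ + q * Int.fract y := by
        rw [← mul_add, Int.floor_add_fract]
      have h3 : (q:ℝ) - dl j < q * Int.fract y := by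
        have := mul_lt_mul_of_pos_left hcon hqpos
        rw [mul_sub, mul_one, mul_div_cancel₀ _ hqpos.ne'] at this
        exact this
      have h4 : (q:ℝ) * Int.fract y < q := by nlinarith
      push_cast
      constructor <;> nlinarith [dl_lt_one j]
    have : Int.fract ((q:ℝ) * y) = (q:ℝ) * Int.fract y - (q - 1) := by
      rw [← Int.self_sub_floor, hfy, ← Int.self_sub_floor]; push_cast; ring
    rw [this] at hy
    have := mul_lt_mul_of_pos_left hcon hqpos
    rw [mul_sub, mul_one, mul_div_cancel₀ _ hqpos.ne'] at this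
    linarith
  have ht : tauFun q N (dl j) y = ((⌊(q:ℝ) * y⌋ - (q:ℤ) * ⌊y⌋ : ℤ) : ℝ) / N := by
    unfold tauFun
    rw [stair_flat (dl_pos j) hy, stair_flat (div_pos (dl_pos j) hqpos) hyf]
    push_cast; ring
  set c : ℤ := ⌊(q:ℝ) * y⌋ - (q:ℤ) * ⌊y⌋
  rw [gmap_F]
  simp only [ht]
  have e : (N:ℝ) * (x + (c:ℝ) / N) = (N:ℝ) * x + (c:ℝ) := by field_simp
  refine Prod.ext ?_ rfl
  simp only [sigFun, e]
  rw [stair_flat (dl_pos j) (by rw [Int.fract_add_intCast]; exact hx), Int.floor_add_intCast]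
  push_cast; ring

end Vale.Agent.P109
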