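import Mathlib
import Vale.Agent.P109.Stair

/-! Tower indices, exceptional sets, and reconstruction of a point from its index (P109). -/

open MeasureTheory Filter Topology Set
open scoped ContDiff ENNReal

namespace Vale.Agent.P109

/-- The representative in the unit square. -/
noncomputable def rep (z : T2) : R2 :=
  ((AddCircle.measurableEquivIco 1 0 z.1 : ℝ), (AddCircle.measurableEquivIco 1 0 z.2 : ℝ))

lemma rep_mem (z : T2) : (rep z).1 ∈ Ico (0:ℝ) 1 ∧ (rep z).2 ∈ Ico (0:ℝ) 1 := by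
  constructor
  · simpa [rep] using (AddCircle.measurableEquivIco 1 0 z.1).2
  · simpa [rep] using (AddCircle.measurableEquivIco 1 0 z.2).2

lemma proj_rep (z : T2) : proj (rep z) = z := by
  apply Prod.ext
  · exact (AddCircle.measurableEquivIco (1:ℝ) 0).left_inv z.1
  · exact (AddCircle.measurableEquivIco (1:ℝ) 0).left_inv z.2

lemma rep_proj (p : R2) : ∃ a b : ℤ, rep (proj p) = (p.1 + a, p.2 + b) := by
  obtain ⟨a, b, hab⟩ := proj_eq_iff.1 (proj_rep (proj p))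
  refine ⟨a, b, ?_⟩
  have : rep (proj p) = p + ((a:ℝ), (b:ℝ)) := by rw [← hab]; abel
  rw [this]; rfl

@[fun_prop]
lemma measurable_rep : Measurable rep :=
  ((measurable_subtype_coe.comp (AddCircle.measurableEquivIco 1 0).measurable).comp
    measurable_fst).prodMk
  ((measurable_subtype_coe.comp (AddCircle.measurableEquivIco 1 0).measurable).comp measurable_snd)

/-- Index of the vertical strip of width `1 / q`. -/
noncomputable def idx (q : ℕ) (z : T2) : ℤ := ⌊(q:ℝ) * (rep z).1⌋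

lemma idx_range {q : ℕ} (hq : 0 < q) (z : T2) : 0 ≤ idx q z ∧ idx q z < q := by
  obtain ⟨⟨h0, h1⟩, -⟩ := rep_mem z
  have hq' : (0:ℝ) < q := by exact_mod_cast hq
  refine ⟨Int.floor_nonneg.2 (by positivity), Int.floor_lt.2 ?_⟩
  push_cast; nlinarith

lemma measurable_idx (q : ℕ) : Measurable (idx q) :=
  Int.measurable_floor.comp (measurable_const.mul (measurable_fst.comp measurable_rep))

lemma fract_nat_mul_add (q : ℕ) (x : ℝ) (a : ℤ) :
    Int.fract ((q:ℝ) * (x + a)) = Int.fract ((q:ℝ) * x) := by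
  rw [mul_add, show (q:ℝ) * (a:ℝ) = ((q * a : ℤ) : ℝ) by push_cast; ring, Int.fract_add_intCast]

lemma cast_idx_proj {a q : ℕ} (h : a ∣ q) (p : R2) :
    (idx q (proj p) : ZMod a) = (⌊(q:ℝ) * p.1⌋ : ZMod a) := by
  obtain ⟨s, t, e⟩ := rep_proj p
  rw [idx, e]
  simp only
  rw [mul_add, show (q:ℝ) * (s:ℝ) = ((q * s : ℤ) : ℝ) by push_cast; ring, Int.floor_add_intCast]
  obtain ⟨c, rfl⟩ := h
  push_cast
  simp

lemma idx_add {a q : ℕ} (hq : 0 < q) (h : a ∣ q) (z : T2) (t : ℝ) :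
    (idx q (z + proj (1 / (q:ℝ), t)) : ZMod a) = (idx q z : ZMod a) + 1 := by
  have hq' : (q:ℝ) ≠ 0 := by positivity
  conv_lhs => rw [← proj_rep z, ← proj_add]
  rw [cast_idx_proj h]
  simp only [Prod.fst_add]
  rw [mul_add, show (q:ℝ) * (1 / (q:ℝ)) = 1 by field_simp, Int.floor_add_one]
  push_cast [idx]
  rfl

/-- Exceptional set of a refining step. -/
def Bad (q N : ℕ) (δ : ℝ) : Set T2 :=
  {z | 1 - δ < Int.fract ((N:ℝ) * (rep z).1) ∨ 1 - δ < Int.fract ((q:ℝ) * (rep z).2)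
    ∨ Int.fract ((q:ℝ) * (rep z).2) < δ}

lemma not_bad_iff {q N : ℕ} {δ : ℝ} (p : R2) :
    proj p ∉ Bad q N δ ↔ Int.fract ((N:ℝ) * p.1) ≤ 1 - δ ∧ Int.fract ((q:ℝ) * p.2) ≤ 1 - δ
      ∧ δ ≤ Int.fract ((q:ℝ) * p.2) := by
  obtain ⟨s, t, e⟩ := rep_proj p
  simp only [Bad, mem_setOf_eq, e, fract_nat_mul_add, not_or, not_lt]

lemma measurableSet_Bad (q N : ℕ) (δ : ℝ) : MeasurableSet (Bad q N δ) := by
  have h1 : Measurable fun z : T2 => Int.fract ((N:ℝ) * (rep z).1) := by fun_prop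
  have h2 : Measurable fun z : T2 => Int.fract ((q:ℝ) * (rep z).2) := by fun_prop
  exact (measurableSet_lt measurable_const h1).union
    ((measurableSet_lt measurable_const h2).union (measurableSet_lt h2 measurable_const))

lemma circle_small (N : ℕ) (hN : 0 < N) (S : Set ℝ) (hS : MeasurableSet S) (a b : ℝ)
    (ha : 0 ≤ a) (hsub : S ⊆ Icc a b) :
    (volume : Measure T1)
      {c : T1 | Int.fract ((N:ℝ) * (AddCircle.measurableEquivIco 1 0 c : ℝ)) ∈ S}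
      ≤ ENNReal.ofReal (b - a) := by
  have hN' : (0:ℝ) < N := by exact_mod_cast hN
  set A := {c : T1 | Int.fract ((N:ℝ) * (AddCircle.measurableEquivIco 1 0 c : ℝ)) ∈ S}
  have hA : MeasurableSet A := by
    have : Measurable fun c : T1 =>
        Int.fract ((N:ℝ) * (AddCircle.measurableEquivIco 1 0 c : ℝ)) := by fun_prop
    exact this hS
  rw [← (AddCircle.measurePreserving_mk 1 0).measure_preimage hA.nullMeasurableSet,
    Measure.restrict_apply (measurable_quotient_mk'' hA)]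
  have hcov : (QuotientAddGroup.mk ⁻¹' A : Set ℝ) ∩ Ioc 0 (0 + 1) ⊆
      ⋃ i ∈ Finset.range (N + 1), Icc (((i:ℝ) + a) / N) (((i:ℝ) + b) / N) ∩ Ioc 0 1 := by
    rintro x ⟨hx, hx0, hx1⟩
    rw [zero_add] at hx1
    obtain ⟨s, t, e⟩ := rep_proj (x, (0:ℝ))
    have e1 := congrArg Prod.fst e
    simp only [rep, proj_apply] at e1
    simp only [mem_preimage, A, mem_setOf_eq] at hx
    rw [e1, fract_nat_mul_add] at hx
    obtain ⟨h1, h2⟩ := hsub hx
    obtain ⟨i, hi⟩ : ∃ i : ℕ, (i:ℤ) = ⌊(N:ℝ) * x⌋ :=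
      ⟨_, Int.toNat_of_nonneg (Int.floor_nonneg.2 (by positivity))⟩
    have hiN : (i:ℝ) ≤ N := by
      have := Int.floor_le ((N:ℝ) * x)
      rw [← hi] at this; push_cast at this; nlinarith
    rw [← Int.self_sub_floor, ← hi] at h1 h2
    push_cast at h1 h2
    simp only [mem_iUnion, Finset.mem_range, mem_inter_iff, mem_Icc, mem_Ioc]
    refine ⟨i, by exact_mod_cast Nat.lt_succ_of_le (by exact_mod_cast hiN), ⟨?_, ?_⟩, hx0, hx1⟩
    · rw [div_le_iff₀ hN']; linarith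
    · rw [le_div_iff₀ hN']; linarith
  refine (measure_mono hcov).trans ((measure_biUnion_finset_le _ _).trans ?_)
  rw [Finset.sum_range_succ]
  have hlast : volume (Icc (((N:ℝ) + a) / N) (((N:ℝ) + b) / N) ∩ Ioc 0 1) = 0 := by
    refine measure_mono_null ?_ (measure_singleton (1:ℝ))
    rintro x ⟨⟨h1, -⟩, -, h3⟩
    rw [mem_singleton_iff]
    refine le_antisymm h3 (le_trans ?_ h1)
    rw [le_div_iff₀ hN']; linarith
  rw [hlast, add_zero]
  refine (Finset.sum_le_sum fun i _ => measure_mono inter_subset_left).trans ?_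
  simp only [Real.volume_Icc]
  rw [Finset.sum_congr rfl (fun (i:ℕ) _ => by
    rw [show ((i:ℝ) + b) / N - ((i:ℝ) + a) / N = (b - a) / N by ring]),
    Finset.sum_const, Finset.card_range, nsmul_eq_mul, ← ENNReal.ofReal_natCast N,
    ← ENNReal.ofReal_mul hN'.le, mul_div_cancel₀ _ hN'.ne']

lemma Bad_small (q N : ℕ) (hq : 0 < q) (hN : 0 < N) {δ : ℝ} (hδ : 0 < δ) (hδ1 : δ < 1) :
    volume (Bad q N δ) ≤ ENNReal.ofReal (3 * δ) := by
  set F : ℕ → Set ℝ → Set T1 := fun M S =>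
    {c : T1 | Int.fract ((M:ℝ) * (AddCircle.measurableEquivIco 1 0 c : ℝ)) ∈ S}
  have e : Bad q N δ ⊆ ((F N (Ioo (1 - δ) 1)) ×ˢ univ) ∪
      ((univ ×ˢ F q (Ioo (1 - δ) 1)) ∪ (univ ×ˢ F q (Ico 0 δ))) := by
    rintro z (h | h | h)
    · exact Or.inl ⟨⟨h, Int.fract_lt_one _⟩, trivial⟩
    · exact Or.inr (Or.inl ⟨trivial, ⟨h, Int.fract_lt_one _⟩⟩)
    · exact Or.inr (Or.inr ⟨trivial, ⟨Int.fract_nonneg _, h⟩⟩)
  have hu : (volume : Measure T1) univ = 1 := by simp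
  refine (measure_mono e).trans ((measure_union_le _ _).trans
    ((add_le_add le_rfl (measure_union_le _ _)).trans ?_))
  rw [Measure.volume_eq_prod, Measure.prod_prod, Measure.prod_prod, Measure.prod_prod, hu,
    mul_one, one_mul, one_mul, show 3 * δ = δ + (δ + δ) by ring,
    ENNReal.ofReal_add hδ.le (by positivity), ENNReal.ofReal_add hδ.le hδ.le]
  refine add_le_add ?_ (add_le_add ?_ ?_)
  · refine (circle_small N hN _ measurableSet_Ioo (1 - δ) 1 (by linarith) Ioo_subset_Icc_self).trans ?_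
    rw [sub_sub_cancel]
  · refine (circle_small q hq _ measurableSet_Ioo (1 - δ) 1 (by linarith) Ioo_subset_Icc_self).trans ?_
    rw [sub_sub_cancel]
  · refine (circle_small q hq _ measurableSet_Ico 0 δ le_rfl Ico_subset_Icc_self).trans ?_
    rw [sub_zero]

/-- A refining step is compatible with the indices. -/
lemma idx_gmap (q N : ℕ) (hq : 0 < q) (hd : q ∣ N) (hN : 0 < N) (j : ℕ) {a : ℕ} (ha : a ∣ q)
    {z : T2} (hz : z ∉ Bad q N (dl j)) :
    (idx q ((gmap q N hq hd j).e z) : ZMod a) = (idx N z : ZMod a) := by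
  rw [← proj_rep z, not_bad_iff] at hz
  obtain ⟨hx, hy, hy'⟩ := hz
  have hy0 : ⌊(rep z).2⌋ = 0 := Int.floor_eq_zero_iff.2 (rep_mem z).2
  conv_lhs => rw [← proj_rep z, ← TDiffeo.hF, gmap_good q N hq hd hN j hx hy, cast_idx_proj ha]
  simp only [hy0, mul_zero, sub_zero]
  have hq' : (q:ℝ) ≠ 0 := by positivity
  have hpos : 0 < Int.fract ((q:ℝ) * (rep z).2) := lt_of_lt_of_le (dl_pos j) hy'
  rw [show ⌊(q:ℝ) * (((⌊(N:ℝ) * (rep z).1⌋ + ⌊(q:ℝ) * (rep z).2⌋ + 1 : ℤ) : ℝ) / q - (rep z).2)⌋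
      = ⌊(N:ℝ) * (rep z).1⌋ from ?_]
  · rfl
  rw [Int.floor_eq_iff]
  have e := Int.self_sub_floor ((q:ℝ) * (rep z).2)
  have := Int.fract_lt_one ((q:ℝ) * (rep z).2)
  rw [mul_sub, mul_div_cancel₀ _ hq']
  push_cast
  constructor <;> linarith

lemma dist_proj_le (a b : R2) : dist (proj a) (proj b) ≤ dist a b := by
  rw [Prod.dist_eq, Prod.dist_eq]
  refine max_le_max ?_ ?_
  · rw [dist_eq_norm, dist_eq_norm, proj_apply, proj_apply, ← AddCircle.coe_sub]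
    exact QuotientAddGroup.norm_mk_le_norm
  · rw [dist_eq_norm, dist_eq_norm, proj_apply, proj_apply, ← AddCircle.coe_sub]
    exact QuotientAddGroup.norm_mk_le_norm

/-- Approximate position, two levels down, of the points of a given index. -/
noncomputable def est (r q N : ℕ) (i : ℤ) : T2 :=
  proj ((((i + ⌊(r:ℝ) * ((i:ℝ) / N)⌋ + 1 : ℤ) : ℝ)) / r - (i:ℝ) / N,
    ((i + ⌊(r:ℝ) * ((i:ℝ) / N)⌋ : ℤ) : ℝ) / q)

lemma est_close (r q N : ℕ) (hr : 0 < r) (hrq : r ∣ q) (hq : 0 < q) (hqN : q ∣ N) (hN : 0 < N)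
    (j : ℕ) (hsmall : (r:ℝ) * q ≤ dl j * N) (hsq : q * q ≤ N)
    {z : T2} (hz : z ∉ Bad q N (dl (j + 1)))
    (hw : (gmap q N hq hqN (j + 1)).e z ∉ Bad r q (dl j)) :
    dist ((gmap r q hr hrq j).e ((gmap q N hq hqN (j + 1)).e z)) (est r q N (idx N z))
      ≤ 1 / (q:ℝ) := by
  obtain ⟨⟨hx0, hx1⟩, ⟨hy0', hy1⟩⟩ := rep_mem z
  have hy0 : ⌊(rep z).2⌋ = 0 := Int.floor_eq_zero_iff.2 (rep_mem z).2
  rw [← proj_rep z] at hw
  rw [← proj_rep z, not_bad_iff] at hz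
  obtain ⟨hx, hy, hy'⟩ := hz
  conv_lhs => rw [← proj_rep z]
  set x := (rep z).1 with hxdef
  set y := (rep z).2 with hydef
  set g := gmap q N hq hqN (j + 1)
  have hrep : rep z = (x, y) := rfl
  simp only [proj_rep]
  rw [hrep] at hw
  rw [← g.hF] at hw
  conv_lhs => rw [← proj_rep z, hrep, ← g.hF, ← TDiffeo.hF]
  rw [gmap_good q N hq hqN hN (j + 1) hx hy] at hw ⊢
  simp only [hy0, mul_zero, sub_zero] at hw ⊢
  have hi : idx N z = ⌊(N:ℝ) * x⌋ := rfl
  have hi' : idx N (proj (x, y)) = ⌊(N:ℝ) * x⌋ := by rw [← hrep, proj_rep]; rfl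
  rw [hi']
  obtain ⟨hi0, hiN⟩ := idx_range hN z
  rw [hi] at hi0 hiN
  set i : ℤ := ⌊(N:ℝ) * x⌋ with hidef
  set c : ℤ := ⌊(q:ℝ) * y⌋ with hcdef
  set X : ℝ := ((i + c + 1 : ℤ) : ℝ) / q - y with hX
  set Y : ℝ := x + (c:ℝ) / N with hY
  rw [not_bad_iff] at hw
  simp only at hw
  obtain ⟨hwx, hwy, hwy'⟩ := hw
  rw [gmap_good r q hr hrq hq j hwx hwy]
  have hq' : (0:ℝ) < q := by exact_mod_cast hq
  have hN' : (0:ℝ) < N := by exact_mod_cast hN
  have hr' : (0:ℝ) < r := by exact_mod_cast hr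
  have hc0 : (0:ℝ) ≤ c := by exact_mod_cast Int.floor_nonneg.2 (by positivity)
  have hc1 : (c:ℝ) + 1 ≤ q := by
    have : c < (q:ℤ) := Int.floor_lt.2 (by push_cast; nlinarith)
    exact_mod_cast this
  have hfx := Int.floor_le ((N:ℝ) * x)
  have hfx' := Int.lt_floor_add_one ((N:ℝ) * x)
  rw [← hidef] at hfx hfx'
  have hi1 : (i:ℝ) + 1 ≤ N := by exact_mod_cast hiN
  have hi0' : (0:ℝ) ≤ i := by exact_mod_cast hi0
  have hYN : (N:ℝ) * Y = N * x + c := by rw [hY]; field_simp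
  have e1 : (i:ℝ) / N ≤ Y := by rw [div_le_iff₀ hN']; linarith
  have e2 : Y - (i:ℝ) / N < (q:ℝ) / N := by
    rw [sub_lt_iff_lt_add, ← add_div, lt_div_iff₀ hN']; linarith
  have hfl : ⌊(r:ℝ) * ((i:ℝ) / N)⌋ = ⌊(r:ℝ) * Y⌋ := by
    rw [Int.floor_eq_iff]
    have hA : (r:ℝ) * (Y - (i:ℝ) / N) ≤ dl j := by
      refine le_trans (mul_le_mul_of_nonneg_left e2.le hr'.le) ?_
      rw [← mul_div_assoc, div_le_iff₀ hN']; exact hsmall
    have hB := Int.self_sub_floor ((r:ℝ) * Y)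
    have hC := Int.lt_floor_add_one ((r:ℝ) * Y)
    have hD : (r:ℝ) * ((i:ℝ) / N) ≤ (r:ℝ) * Y := mul_le_mul_of_nonneg_left e1 hr'.le
    constructor <;> nlinarith
  have hY1 : ⌊Y⌋ = 0 := by
    rw [Int.floor_eq_zero_iff]
    refine ⟨le_trans (by positivity) e1, ?_⟩
    have h1 : ⌊(r:ℝ) * Y⌋ < (r:ℤ) := by
      rw [← hfl, Int.floor_lt]
      push_cast
      rw [mul_lt_iff_lt_one_right hr', div_lt_one hN']
      linarith
    rw [Int.floor_lt] at h1
    push_cast at h1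
    nlinarith
  have hqX : (q:ℝ) * X = i + 1 - Int.fract ((q:ℝ) * y) := by
    rw [hX, ← Int.self_sub_floor, ← hcdef, mul_sub, mul_div_cancel₀ _ hq'.ne']
    push_cast; ring
  have hfy0 : 0 < Int.fract ((q:ℝ) * y) := lt_of_lt_of_le (dl_pos _) hy'
  have hfy1 := Int.fract_lt_one ((q:ℝ) * y)
  have hX1 : ⌊(q:ℝ) * X⌋ = i := by
    rw [Int.floor_eq_iff, hqX]; constructor <;> linarith
  rw [hY1, hX1, est, hfl]
  refine (dist_proj_le _ _).trans ?_
  rw [Prod.dist_eq]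
  simp only [mul_zero, sub_zero, Real.dist_eq]
  refine max_le ?_ ?_
  · rw [sub_sub_sub_cancel_left, abs_sub_comm, abs_of_nonneg (by linarith)]
    refine e2.le.trans ?_
    rw [div_le_div_iff₀ hN' hq', one_mul]
    exact_mod_cast hsq
  · rw [abs_le]
    have hx2 : X - (i:ℝ) / q = (1 - Int.fract ((q:ℝ) * y)) / q := by
      rw [eq_div_iff hq'.ne', sub_mul, div_mul_cancel₀ _ hq'.ne', mul_comm X, hqX]; ring
    have h3 : (1 - Int.fract ((q:ℝ) * y)) / q ≤ 1 / q := div_le_div_of_nonneg_right (by linarith) hq'.le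
    have h4 : 0 ≤ (1 - Int.fract ((q:ℝ) * y)) / q := div_nonneg (by linarith) hq'.le
    have e : X + ((⌊(r:ℝ) * Y⌋ : ℤ) : ℝ) / q - ((i + ⌊(r:ℝ) * Y⌋ : ℤ) : ℝ) / q = X - (i:ℝ) / q := by
      push_cast; ring
    rw [e, hx2]
    constructor <;> linarith

end Vale.Agent.P109
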