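import Mathlib
import Vale.Agent.P109.Index
import Vale.Agent.P109.Limit

/-! The sequence of conjugated periodic translations adapted to an odometer (P109). -/

open MeasureTheory Filter Topology Set
open scoped ContDiff

namespace Vale.Agent.P109

/-- Base data of an odometer. -/
structure Chain where
  q : ℕ → ℕ
  pos : ∀ n, 0 < q n
  dvd : ∀ n, q n ∣ q (n + 1)
  top : Tendsto q atTop atTop

namespace Chain

variable (C : Chain)

lemma dvd_le {a b : ℕ} (h : a ≤ b) : C.q a ∣ C.q b := by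
  induction h with
  | refl => exact dvd_rfl
  | step _ ih => exact ih.trans (C.dvd _)

lemma tendsto_inv : Tendsto (fun n => 1 / (C.q n : ℝ)) atTop (𝓝 0) := by
  have h : Tendsto (fun n => ((C.q n : ℝ))⁻¹) atTop (𝓝 0) :=
    tendsto_inv_atTop_zero.comp (tendsto_natCast_atTop_atTop.comp C.top)
  simpa [one_div] using h

/-- Requirements on the next level. -/
def Adm (j n : ℕ) (D : TDiffeo) (n' : ℕ) : Prop :=
  n < n' ∧
  (∀ k ≤ j, ∀ p, ‖iteratedFDeriv ℝ k (fun x =>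
    conjF D ((1 / (C.q n : ℝ), 0) + (1 / (C.q n' : ℝ)) • ((0:ℝ), (1:ℝ))) x
      - conjF D (1 / (C.q n : ℝ), 0) x) p‖ ≤ (1/2 : ℝ) ^ j) ∧
  (∀ k ≤ j, ∀ p, ‖iteratedFDeriv ℝ k (fun x =>
    conjF D ((-(1 / (C.q n : ℝ)), 0) + (1 / (C.q n' : ℝ)) • ((0:ℝ), (-1:ℝ))) x
      - conjF D (-(1 / (C.q n : ℝ)), 0) x) p‖ ≤ (1/2 : ℝ) ^ j) ∧
  (∀ a b : T2, dist a b ≤ 1 / (C.q n' : ℝ) → dist (D.e a) (D.e b) ≤ (1/2 : ℝ) ^ j) ∧
  2 ^ (j + 1) * C.q n * C.q n ≤ C.q n'

lemma adm_exists (j n : ℕ) (D : TDiffeo) : ∃ n', C.Adm j n D n' := by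
  have hε : (0:ℝ) < (1/2) ^ j := by positivity
  have hbeta : ∀ (v0 w : R2), ∀ᶠ n' in atTop, ∀ k ≤ j, ∀ p, ‖iteratedFDeriv ℝ k (fun x =>
      conjF D (v0 + (1 / (C.q n' : ℝ)) • w) x - conjF D v0 x) p‖ ≤ (1/2 : ℝ) ^ j := by
    intro v0 w
    refine (Finset.range (j + 1)).eventually_all.2 (fun k _ => ?_) |>.mono
      (fun n' h k hk => h k (Finset.mem_range.2 (by omega)))
    obtain ⟨η, hη, h⟩ := conj_diff_small D v0 w k hε
    filter_upwards [(Metric.tendsto_nhds.1 C.tendsto_inv) η hη] with n' hn'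
    exact h _ (by simpa [Real.dist_eq] using hn')
  have huc : ∀ᶠ n' in atTop, ∀ a b : T2, dist a b ≤ 1 / (C.q n' : ℝ) →
      dist (D.e a) (D.e b) ≤ (1/2 : ℝ) ^ j := by
    obtain ⟨η, hη, h⟩ := Metric.uniformContinuous_iff.1
      (CompactSpace.uniformContinuous_of_continuous D.e.continuous) _ hε
    filter_upwards [(tendsto_order.1 C.tendsto_inv).2 η hη] with n' hn' a b hab
    exact (h (lt_of_le_of_lt hab hn')).le
  obtain ⟨n', h1, h2, h3, h4, h5⟩ := ((eventually_gt_atTop n).and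
    ((hbeta (1 / (C.q n : ℝ), 0) (0, 1)).and ((hbeta (-(1 / (C.q n : ℝ)), 0) (0, -1)).and
      (huc.and (C.top.eventually_ge_atTop (2 ^ (j + 1) * C.q n * C.q n)))))).exists
  exact ⟨n', h1, h2, h3, h4, h5⟩

/-- Level and conjugacy at each stage. -/
noncomputable def st : ℕ → ℕ × TDiffeo
  | 0 => (0, TDiffeo.refl)
  | j + 1 =>
    ((C.adm_exists j (st j).1 (st j).2).choose,
      (st j).2.comp (gmap (C.q (st j).1) (C.q (C.adm_exists j (st j).1 (st j).2).choose) (C.pos _)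
        (C.dvd_le (C.adm_exists j (st j).1 (st j).2).choose_spec.1.le) j))

noncomputable def lev (j : ℕ) : ℕ := (C.st j).1

noncomputable def Q (j : ℕ) : ℕ := C.q (C.lev j)

noncomputable def D (j : ℕ) : TDiffeo := (C.st j).2

lemma lev_spec (j : ℕ) : C.Adm j (C.lev j) (C.D j) (C.lev (j + 1)) :=
  (C.adm_exists j (C.st j).1 (C.st j).2).choose_spec

lemma Q_pos (j : ℕ) : 0 < C.Q j := C.pos _

lemma Q_dvd (j : ℕ) : C.Q j ∣ C.Q (j + 1) := C.dvd_le (C.lev_spec j).1.le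

noncomputable def g (j : ℕ) : TDiffeo := gmap (C.Q j) (C.Q (j + 1)) (C.Q_pos j) (C.Q_dvd j) j

lemma D_succ (j : ℕ) : C.D (j + 1) = (C.D j).comp (C.g j) := rfl

lemma le_lev (j : ℕ) : j ≤ C.lev j := by
  induction j with
  | zero => exact Nat.zero_le _
  | succ j ih => exact Nat.succ_le_of_lt (lt_of_le_of_lt ih (C.lev_spec j).1)

lemma q_dvd_Q {n j : ℕ} (h : n ≤ j) : C.q n ∣ C.Q j := C.dvd_le (h.trans (C.le_lev j))

noncomputable def cF (j : ℕ) : R2 → R2 := conjF (C.D j) (1 / (C.Q j : ℝ), 0)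

noncomputable def cG (j : ℕ) : R2 → R2 := conjF (C.D j) (-(1 / (C.Q j : ℝ)), 0)

lemma cF_succ (j : ℕ) : C.cF (j + 1) =
    conjF (C.D j) ((1 / (C.Q j : ℝ), 0) + (1 / (C.Q (j + 1) : ℝ)) • ((0:ℝ), (1:ℝ))) := by
  funext p
  simp only [cF, conjF, C.D_succ, TDiffeo.comp, Function.comp_apply]
  have := gmap_step (C.Q j) (C.Q (j + 1)) (C.Q_pos j) (C.Q_dvd j) (C.Q_pos _) j
  rw [show (C.g j).F = (gmap (C.Q j) (C.Q (j + 1)) (C.Q_pos j) (C.Q_dvd j) j).F from rfl, this]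
  simp [g, TDiffeo.FG, Prod.smul_mk]

lemma cG_succ (j : ℕ) : C.cG (j + 1) =
    conjF (C.D j) ((-(1 / (C.Q j : ℝ)), 0) + (1 / (C.Q (j + 1) : ℝ)) • ((0:ℝ), (-1:ℝ))) := by
  funext p
  simp only [cG, conjF, C.D_succ, TDiffeo.comp, Function.comp_apply]
  set u := (C.g j).G ((C.D j).G p) with hu
  have h := gmap_step (C.Q j) (C.Q (j + 1)) (C.Q_pos j) (C.Q_dvd j) (C.Q_pos _) j
    (u + (-(1 / (C.Q (j + 1) : ℝ)), 0))
  rw [add_assoc, show ((-(1 / (C.Q (j + 1) : ℝ)), (0:ℝ)) : R2) + (1 / (C.Q (j + 1) : ℝ), 0) = 0 by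
    simp, add_zero] at h
  have hu' : (C.g j).F u = (C.D j).G p := (C.g j).FG _
  rw [show (C.g j).F (u + (-(1 / (C.Q (j + 1) : ℝ)), 0))
    = (C.D j).G p - (1 / (C.Q j : ℝ), 1 / (C.Q (j + 1) : ℝ)) by
      rw [← hu', eq_sub_iff_add_eq]; exact h.symm]
  congr 1
  simp [sub_eq_add_neg, Prod.smul_mk]

noncomputable def seqF : FastSeq where
  c := C.cF
  smooth _ := conjF_smooth _ _
  small j k hk p := by
    rw [C.cF_succ]; exact (C.lev_spec j).2.1 k hk p
  bdd j k := by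
    rw [C.cF_succ]; exact conj_diff_bounded _ _ _ k
  equi _ p _ hm := conjF_add_int _ _ p hm

noncomputable def seqG : FastSeq where
  c := C.cG
  smooth _ := conjF_smooth _ _
  small j k hk p := by
    rw [C.cG_succ]; exact (C.lev_spec j).2.2.1 k hk p
  bdd j k := by
    rw [C.cG_succ]; exact conj_diff_bounded _ _ _ k
  equi _ p _ hm := conjF_add_int _ _ p hm

lemma cFG (j : ℕ) (p : R2) : C.cF j (C.cG j p) = p := by
  simpa [cF, cG] using conjF_inv (C.D j) (1 / (C.Q j : ℝ), 0) p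

lemma cGF (j : ℕ) (p : R2) : C.cG j (C.cF j p) = p := by
  simpa [cF, cG] using conjF_inv (C.D j) (-(1 / (C.Q j : ℝ)), 0) p

/-- The diffeomorphism realising the odometer. -/
noncomputable def S : T2 ≃ₜ T2 := C.seqF.homeo C.seqG C.cFG C.cGF

/-- The periodic approximations. -/
noncomputable def T (j : ℕ) (z : T2) : T2 :=
  (C.D j).e ((C.D j).e.symm z + proj (1 / (C.Q j : ℝ), 0))

lemma T_proj (j : ℕ) (p : R2) : C.T j (proj p) = proj (C.cF j p) := (proj_conjF _ _ _).symm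

lemma T_mp (j : ℕ) : MeasurePreserving (C.T j) volume volume := by
  have h1 : MeasurePreserving (C.D j).symm.e volume volume := (C.D j).symm.mp
  exact (C.D j).mp.comp ((transl (1 / (C.Q j : ℝ), 0)).mp.comp h1)

lemma T_tendsto (z : T2) : Tendsto (fun j => C.T j z) atTop (𝓝 (C.S z)) :=
  C.seqF.tendsto_onTorus _ C.T_proj z

lemma S_mp : MeasurePreserving C.S volume volume :=
  mp_of_tendsto C.T_mp C.S.continuous C.T_tendsto

lemma S_lift (p : R2) : C.S (proj p) = proj (C.seqF.lim p) := C.seqF.onTorus_proj p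

lemma S_symm_lift (p : R2) : C.S.symm (proj p) = proj (C.seqG.lim p) := C.seqG.onTorus_proj p

/-- Coordinates of stage `j`. -/
noncomputable def pt (j : ℕ) (z : T2) : T2 := (C.D j).e.symm z

lemma pt_succ (j : ℕ) (z : T2) : (C.g j).e (C.pt (j + 1) z) = C.pt j z := by
  simp [pt, C.D_succ, TDiffeo.comp]

lemma measurable_pt (j : ℕ) : Measurable (C.pt j) := (C.D j).e.symm.continuous.measurable

lemma pt_mp (j : ℕ) : MeasurePreserving (C.pt j) volume volume := (C.D j).symm.mp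

end Chain

end Vale.Agent.P109
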