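import Mathlib
import Vale.Agent.P109.Tower

/-! The isomorphism between the limit diffeomorphism and the odometer (P109). -/

open MeasureTheory Filter Topology Set
open scoped ContDiff ENNReal

namespace Vale.Agent.P109

/-- The odometer space: compatible sequences of residues. -/
abbrev Om (q : ℕ → ℕ) : Type :=
  {x : ℕ → ℤ // ∀ n, (0 ≤ x n ∧ x n < (q n : ℤ)) ∧ x (n + 1) % (q n : ℤ) = x n}

namespace Chain

variable (C : Chain)

/-- Adding one. -/
def succ (x : Om C.q) : Om C.q :=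
  ⟨fun n => (x.1 n + 1) % (C.q n : ℤ), fun n =>
    ⟨⟨Int.emod_nonneg _ (by have := C.pos n; omega),
      Int.emod_lt_of_pos _ (by have := C.pos n; omega)⟩, by
    show (x.1 (n + 1) + 1) % (C.q (n + 1) : ℤ) % (C.q n : ℤ) = (x.1 n + 1) % (C.q n : ℤ)
    rw [Int.emod_emod_of_dvd _ (Int.natCast_dvd_natCast.2 (C.dvd n))]
    conv_rhs => rw [← (x.2 n).2]
    rw [Int.emod_add_emod]⟩⟩

lemma measurable_coord (n : ℕ) : Measurable (fun x : Om C.q => x.1 n) :=
  (measurable_pi_apply n).comp measurable_subtype_coe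

lemma measurable_succ : Measurable C.succ := by
  refine Measurable.subtype_mk (measurable_pi_lambda _ fun n => ?_)
  exact (Measurable.of_discrete (f := fun k : ℤ => (k + 1) % (C.q n : ℤ))).comp (C.measurable_coord n)

/-- Stage `j` approximation of coordinate `n`. -/
noncomputable def W (n j : ℕ) (z : T2) : ℤ := idx (C.Q j) (C.pt j z) % (C.q n : ℤ)

lemma measurable_W (n j : ℕ) : Measurable (C.W n j) :=
  (Measurable.of_discrete (f := fun k : ℤ => k % (C.q n : ℤ))).comp
    ((measurable_idx _).comp (C.measurable_pt j))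

lemma W_cast {n j : ℕ} {z : T2} {k : ℤ} (h : (idx (C.Q j) (C.pt j z) : ZMod (C.q n)) = (k : ZMod (C.q n))) :
    C.W n j z = k % (C.q n : ℤ) := (ZMod.intCast_eq_intCast_iff' _ _ _).1 h

lemma W_range (n j : ℕ) (z : T2) : 0 ≤ C.W n j z ∧ C.W n j z < (C.q n : ℤ) :=
  ⟨Int.emod_nonneg _ (by have := C.pos n; omega), Int.emod_lt_of_pos _ (by have := C.pos n; omega)⟩

lemma W_T {n j : ℕ} (h : n ≤ j) (z : T2) :
    C.W n j (C.T j z) = (C.W n j z + 1) % (C.q n : ℤ) := by
  rw [W, W, Int.emod_add_emod]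
  apply (ZMod.intCast_eq_intCast_iff' _ _ _).1
  have : C.pt j (C.T j z) = C.pt j z + proj (1 / (C.Q j : ℝ), 0) := by simp [pt, T]
  rw [this, idx_add (C.Q_pos j) (C.q_dvd_Q h)]
  push_cast; rfl

/-- Exceptional set of step `j`. -/
def B (j : ℕ) : Set T2 := C.pt (j + 1) ⁻¹' Bad (C.Q j) (C.Q (j + 1)) (dl j)

lemma B_small (j : ℕ) : volume (C.B j) ≤ ENNReal.ofReal (3 * dl j) := by
  rw [B, (C.pt_mp (j + 1)).measure_preimage (measurableSet_Bad _ _ _).nullMeasurableSet]
  exact Bad_small _ _ (C.Q_pos _) (C.Q_pos _) (dl_pos j) (dl_lt_one j)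

lemma W_step {n j : ℕ} (h : n ≤ j) {z : T2} (hz : z ∉ C.B j) : C.W n (j + 1) z = C.W n j z := by
  apply (ZMod.intCast_eq_intCast_iff' _ _ _).1
  rw [← C.pt_succ j z]
  exact (idx_gmap _ _ (C.Q_pos j) (C.Q_dvd j) (C.Q_pos _) j (C.q_dvd_Q h) hz).symm

/-- Exceptional set of all steps from `m` on. -/
def Tail (m : ℕ) : Set T2 := ⋃ l : ℕ, C.B (l + m)

lemma Tail_small (m : ℕ) : volume (C.Tail m) ≤ ENNReal.ofReal (3 * (1/2 : ℝ) ^ m) := by
  refine (measure_iUnion_le _).trans ((ENNReal.tsum_le_tsum fun l => C.B_small _).trans ?_)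
  have hs : HasSum (fun l : ℕ => 3 * dl (l + m)) (3 * (1/2 : ℝ) ^ m) := by
    have h2 := (hasSum_geometric_two' (1 : ℝ)).mul_left (3 * (1/2 : ℝ) ^ m)
    rw [mul_one] at h2
    refine h2.congr_fun fun l => ?_
    simp only [dl, pow_add, pow_one, div_pow, one_pow]
    ring
  rw [← ENNReal.ofReal_tsum_of_nonneg (fun l => by have := dl_pos (l + m); positivity) hs.summable,
    hs.tsum_eq]

lemma W_stable {n m j : ℕ} (hn : n ≤ m) (hm : m ≤ j) {z : T2} (hz : z ∉ C.Tail m) :
    C.W n j z = C.W n m z := by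
  induction j, hm using Nat.le_induction with
  | base => rfl
  | succ j hj ih =>
    rw [C.W_step (hn.trans hj), ih]
    intro hB
    exact hz (mem_iUnion.2 ⟨j - m, by rwa [Nat.sub_add_cancel hj]⟩)

lemma ae_eventually_tail : ∀ᵐ z ∂(volume : Measure T2), ∀ᶠ m in atTop, z ∉ C.Tail m := by
  apply ae_eventually_notMem
  refine ne_top_of_le_ne_top ?_ (ENNReal.tsum_le_tsum fun m => C.Tail_small m)
  rw [← ENNReal.ofReal_tsum_of_nonneg (fun m => by positivity)
    (summable_geometric_two.mul_left 3)]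
  exact ENNReal.ofReal_ne_top

/-- Points where all coordinates stabilise. -/
def GoodPts : Set T2 := {z | ∀ n, ∃ i, ∀ᶠ j in atTop, C.W n j z = i}

lemma measurableSet_ev (n : ℕ) (i : ℤ) : MeasurableSet {z | ∀ᶠ j in atTop, C.W n j z = i} := by
  simp only [eventually_atTop, setOf_exists, setOf_forall]
  exact MeasurableSet.iUnion fun a => MeasurableSet.iInter fun b =>
    MeasurableSet.iInter fun _ => measurableSet_eq_fun (C.measurable_W n b) measurable_const

lemma measurableSet_GoodPts : MeasurableSet C.GoodPts := by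
  simp only [GoodPts, setOf_forall, setOf_exists]
  exact MeasurableSet.iInter fun n => MeasurableSet.iUnion fun i => C.measurableSet_ev n i

open Classical in
noncomputable def phi0 (z : T2) (n : ℕ) : ℤ :=
  if h : z ∈ C.GoodPts then (h n).choose else 0

lemma phi0_spec {z : T2} (h : z ∈ C.GoodPts) (n : ℕ) : ∀ᶠ j in atTop, C.W n j z = C.phi0 z n := by
  rw [phi0, dif_pos h]; exact (h n).choose_spec

lemma phi0_valid (z : T2) (n : ℕ) :
    (0 ≤ C.phi0 z n ∧ C.phi0 z n < (C.q n : ℤ)) ∧ C.phi0 z (n + 1) % (C.q n : ℤ) = C.phi0 z n := by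
  by_cases h : z ∈ C.GoodPts
  · obtain ⟨j, h1, h2⟩ := ((C.phi0_spec h n).and (C.phi0_spec h (n + 1))).exists
    rw [← h1, ← h2]
    refine ⟨C.W_range n j z, ?_⟩
    rw [W, W, Int.emod_emod_of_dvd _ (Int.natCast_dvd_natCast.2 (C.dvd n))]
  · have := C.pos n
    simp [phi0, h]
    omega

/-- The factor map onto the odometer. -/
noncomputable def phi (z : T2) : Om C.q := ⟨C.phi0 z, C.phi0_valid z⟩

lemma measurable_phi : Measurable C.phi := by
  refine Measurable.subtype_mk (measurable_pi_lambda _ fun n => ?_)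
  refine measurable_to_countable' fun i => ?_
  have e : (fun z => C.phi0 z n) ⁻¹' {i} =
      (C.GoodPts ∩ {z | ∀ᶠ j in atTop, C.W n j z = i}) ∪ (C.GoodPtsᶜ ∩ {_z | i = 0}) := by
    ext z
    simp only [mem_preimage, mem_singleton_iff, mem_union, mem_inter_iff, mem_compl_iff,
      mem_setOf_eq]
    by_cases h : z ∈ C.GoodPts
    · simp only [h, true_and, not_true_eq_false, false_and, or_false]
      constructor
      · rintro rfl; exact C.phi0_spec h n
      · intro hi; obtain ⟨j, h1, h2⟩ := ((C.phi0_spec h n).and hi).exists; rw [← h1, h2]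
    · simp [phi0, h, eq_comm]
  rw [e]
  exact (C.measurableSet_GoodPts.inter (C.measurableSet_ev n i)).union
    (C.measurableSet_GoodPts.compl.inter (MeasurableSet.const _))

lemma phi_eq {z : T2} {m n : ℕ} (hn : n ≤ m) (hz : z ∉ C.Tail m) (hg : z ∈ C.GoodPts) :
    (C.phi z).1 n = C.W n m z := by
  obtain ⟨j, h1, h2⟩ := ((C.phi0_spec hg n).and (eventually_ge_atTop m)).exists
  show C.phi0 z n = _
  rw [← h1, C.W_stable hn h2 hz]

lemma good_of_ev {z : T2} (h : ∀ᶠ m in atTop, z ∉ C.Tail m) : z ∈ C.GoodPts := by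
  intro n
  obtain ⟨m, hm, hn⟩ := (h.and (eventually_ge_atTop n)).exists
  exact ⟨C.W n m z, eventually_atTop.2 ⟨m, fun j hj => C.W_stable hn hj hm⟩⟩

/-- Points whose image under `S` avoids the boundaries of the stage `m` strips. -/
lemma W_loc_const {n m : ℕ} (hn : n ≤ m) {w : T2} {y : ℕ → T2}
    (hy : Tendsto y atTop (𝓝 w))
    (hw : Int.fract ((C.Q m : ℝ) * (rep (C.pt m w)).1) ≠ 0) :
    ∀ᶠ j in atTop, C.W n m (y j) = C.W n m w := by
  set u := C.pt m w
  set p := rep u
  have hU : {p' : R2 | ⌊(C.Q m : ℝ) * p'.1⌋ = ⌊(C.Q m : ℝ) * p.1⌋} ∈ 𝓝 p := by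
    have hc : Continuous fun p' : R2 => (C.Q m : ℝ) * p'.1 := by fun_prop
    have h1 : Ioo ((⌊(C.Q m : ℝ) * p.1⌋ : ℤ) : ℝ) (⌊(C.Q m : ℝ) * p.1⌋ + 1) ∈ 𝓝 ((C.Q m : ℝ) * p.1) := by
      refine Ioo_mem_nhds ?_ (Int.lt_floor_add_one _)
      have := (Int.fract_nonneg ((C.Q m : ℝ) * p.1)).lt_of_ne' hw
      rw [← Int.self_sub_floor] at this
      linarith
    filter_upwards [hc.continuousAt.preimage_mem_nhds h1] with p' hp'
    exact Int.floor_eq_iff.2 ⟨hp'.1.le, hp'.2⟩
  have himg := proj_open.isOpenMap.image_mem_nhds hU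
  rw [proj_rep] at himg
  have hty : Tendsto (fun j => C.pt m (y j)) atTop (𝓝 u) :=
    ((C.D m).e.symm.continuous.tendsto w).comp hy
  filter_upwards [hty.eventually himg] with j hj
  obtain ⟨p', hp', e⟩ := hj
  apply (ZMod.intCast_eq_intCast_iff' _ _ _).1
  rw [← e, cast_idx_proj (C.q_dvd_Q hn), hp']
  rfl

/-- The set where stage `m` fails to commute with `S`. -/
def Skew (m : ℕ) : Set T2 :=
  {z | ∃ n ≤ m, C.W n m (C.S z) ≠ (C.W n m z + 1) % (C.q n : ℤ)}

lemma Skew_small (m : ℕ) : volume (C.Skew m) ≤ ENNReal.ofReal (6 * (1/2 : ℝ) ^ m) := by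
  set Z : Set T2 := {z | Int.fract ((C.Q m : ℝ) * (rep (C.pt m (C.S z))).1) = 0} with hZdef
  have hZ : volume Z = 0 := by
    set A : Set T1 := {c : T1 |
      Int.fract ((C.Q m : ℝ) * (AddCircle.measurableEquivIco 1 0 c : ℝ)) ∈ ({0} : Set ℝ)}
    have hA : volume A = 0 := by
      simpa [A] using circle_small _ (C.Q_pos m) _ (measurableSet_singleton (0:ℝ)) 0 0 le_rfl
        (by simp)
    have hA' : MeasurableSet A := by
      have : Measurable fun c : T1 =>
          Int.fract ((C.Q m : ℝ) * (AddCircle.measurableEquivIco 1 0 c : ℝ)) := by fun_prop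
      exact this (measurableSet_singleton _)
    have e : Z = (C.pt m ∘ C.S) ⁻¹' (A ×ˢ univ) := by
      ext z; simp [Z, A, rep]
    rw [e, ((C.pt_mp m).comp C.S_mp).measure_preimage (hA'.prod MeasurableSet.univ).nullMeasurableSet,
      Measure.volume_eq_prod, Measure.prod_prod, hA, zero_mul]
  set K : ℕ → Set T2 := fun J => ⋂ j ≥ max J m, (C.Tail m ∪ C.T j ⁻¹' C.Tail m)
  have hsub : C.Skew m ⊆ Z ∪ ⋃ J, K J := by
    intro z hz
    obtain ⟨n, hn, hne⟩ := hz
    by_cases hzZ : z ∈ Z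
    · exact Or.inl hzZ
    · refine Or.inr (mem_iUnion.2 ?_)
      obtain ⟨J, hJ⟩ := eventually_atTop.1 (C.W_loc_const hn (C.T_tendsto z) hzZ)
      refine ⟨J, mem_iInter₂.2 fun j hj => ?_⟩
      by_contra hcon
      simp only [mem_union, mem_preimage, not_or] at hcon
      have hjJ : J ≤ j := le_trans (le_max_left _ _) hj
      have hjm : m ≤ j := le_trans (le_max_right _ _) hj
      apply hne
      rw [← hJ j hjJ, ← C.W_stable hn hjm hcon.2, C.W_T (hn.trans hjm), C.W_stable hn hjm hcon.1]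
  refine (measure_mono hsub).trans ((measure_union_le _ _).trans ?_)
  rw [hZ, zero_add, Monotone.measure_iUnion]
  · refine iSup_le fun J => ?_
    refine (measure_mono (iInter₂_subset (max J m) le_rfl)).trans ((measure_union_le _ _).trans ?_)
    have hT : MeasurableSet (C.Tail m) :=
      MeasurableSet.iUnion fun l => C.measurable_pt _ (measurableSet_Bad _ _ _)
    rw [(C.T_mp _).measure_preimage hT.nullMeasurableSet,
      show (6:ℝ) * (1/2) ^ m = 3 * (1/2) ^ m + 3 * (1/2) ^ m by ring,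
      ENNReal.ofReal_add (by positivity) (by positivity)]
    exact add_le_add (C.Tail_small m) (C.Tail_small m)
  · intro a b hab
    refine subset_iInter₂ fun j hj => iInter₂_subset j ?_
    exact le_trans (max_le_max_right m hab) hj

lemma ae_phi_S : ∀ᵐ z ∂(volume : Measure T2), C.phi (C.S z) = C.succ (C.phi z) := by
  have hsk : ∀ᵐ z ∂(volume : Measure T2), ∀ᶠ m in atTop, z ∉ C.Skew m := by
    apply ae_eventually_notMem
    refine ne_top_of_le_ne_top ?_ (ENNReal.tsum_le_tsum fun m => C.Skew_small m)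
    rw [← ENNReal.ofReal_tsum_of_nonneg (fun m => by positivity)
      (summable_geometric_two.mul_left 6)]
    exact ENNReal.ofReal_ne_top
  filter_upwards [hsk, C.ae_eventually_tail, C.S_mp.quasiMeasurePreserving.ae C.ae_eventually_tail]
    with z h1 h2 h3
  apply Subtype.ext
  funext n
  obtain ⟨m, hn, g1, g2, g3⟩ := ((eventually_ge_atTop n).and (h1.and (h2.and h3))).exists
  show (C.phi (C.S z)).1 n = ((C.phi z).1 n + 1) % (C.q n : ℤ)
  rw [C.phi_eq hn g3 (C.good_of_ev h3), C.phi_eq hn g2 (C.good_of_ev h2)]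
  by_contra hne
  exact g1 ⟨n, hn, hne⟩

/-- Stage approximations of the inverse map. -/
noncomputable def invApprox (j : ℕ) (x : Om C.q) : T2 :=
  (C.D j).e (est (C.Q j) (C.Q (j + 1)) (C.Q (j + 2)) (x.1 (C.lev (j + 2))))

lemma measurable_invApprox (j : ℕ) : Measurable (C.invApprox j) :=
  (Measurable.of_discrete
    (f := fun i : ℤ => (C.D j).e (est (C.Q j) (C.Q (j + 1)) (C.Q (j + 2)) i))).comp
    (C.measurable_coord _)

/-- The inverse map. -/
noncomputable def psi (x : Om C.q) : T2 := limUnder atTop (fun j => C.invApprox j x)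

lemma measurable_psi : Measurable C.psi :=
  (StronglyMeasurable.limUnder fun j => (C.measurable_invApprox j).stronglyMeasurable).measurable

lemma invApprox_close {j : ℕ} {z : T2} (h1 : z ∉ C.B (j + 1)) (h2 : z ∉ C.B j)
    (hphi : (C.phi z).1 (C.lev (j + 2)) = idx (C.Q (j + 2)) (C.pt (j + 2) z)) :
    dist z (C.invApprox j (C.phi z)) ≤ (1/2 : ℝ) ^ j := by
  have hsize := (C.lev_spec (j + 1)).2.2.2.2
  have hsmall : (C.Q j : ℝ) * C.Q (j + 1) ≤ dl j * C.Q (j + 2) := by
    have hrq : (C.Q j : ℝ) ≤ C.Q (j + 1) := by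
      exact_mod_cast Nat.le_of_dvd (C.Q_pos _) (C.Q_dvd j)
    have hs : (2:ℝ) ^ (j + 1 + 1) * C.Q (j + 1) * C.Q (j + 1) ≤ C.Q (j + 2) := by
      exact_mod_cast hsize
    have e : dl j * ((2:ℝ) ^ (j + 1 + 1) * C.Q (j + 1) * C.Q (j + 1))
        = 2 * (C.Q (j + 1) * C.Q (j + 1)) := by
      rw [show (2:ℝ) ^ (j + 1 + 1) = 2 ^ (j + 1) * 2 by ring, dl, div_pow, one_pow]
      field_simp
    have := mul_le_mul_of_nonneg_left hs (dl_pos j).le
    rw [e] at this
    nlinarith [mul_le_mul_of_nonneg_right hrq (show (0:ℝ) ≤ C.Q (j + 1) by positivity),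
      mul_nonneg (show (0:ℝ) ≤ C.Q (j + 1) by positivity) (show (0:ℝ) ≤ C.Q (j + 1) by positivity)]
  have hsq : C.Q (j + 1) * C.Q (j + 1) ≤ C.Q (j + 2) := by
    refine le_trans ?_ hsize
    rw [mul_assoc]
    exact Nat.le_mul_of_pos_left _ (by positivity)
  have hw : (C.g (j + 1)).e (C.pt (j + 2) z) ∉ Bad (C.Q j) (C.Q (j + 1)) (dl j) := by
    rw [C.pt_succ (j + 1) z]; exact h2
  have hd := est_close (C.Q j) (C.Q (j + 1)) (C.Q (j + 2)) (C.Q_pos _) (C.Q_dvd _) (C.Q_pos _)
    (C.Q_dvd _) (C.Q_pos _) j hsmall hsq h1 hw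
  rw [← hphi] at hd
  have e1 : (gmap (C.Q j) (C.Q (j + 1)) (C.Q_pos _) (C.Q_dvd _) j).e
      ((gmap (C.Q (j + 1)) (C.Q (j + 2)) (C.Q_pos _) (C.Q_dvd _) (j + 1)).e (C.pt (j + 2) z))
      = C.pt j z := by
    show (C.g j).e ((C.g (j + 1)).e (C.pt (j + 2) z)) = _
    rw [C.pt_succ (j + 1) z, C.pt_succ j z]
  rw [e1] at hd
  have := (C.lev_spec j).2.2.2.1 _ _ hd
  simpa [pt, invApprox] using this

lemma ae_psi_phi : ∀ᵐ z ∂(volume : Measure T2), C.psi (C.phi z) = z := by
  filter_upwards [C.ae_eventually_tail] with z hz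
  have hg := C.good_of_ev hz
  obtain ⟨m, hm⟩ := eventually_atTop.1 hz
  have key : ∀ j ≥ m, dist z (C.invApprox j (C.phi z)) ≤ (1/2 : ℝ) ^ j := by
    intro j hj
    have hnB : ∀ l ≥ m, z ∉ C.B l := fun l hl hB =>
      hm l hl (mem_iUnion.2 ⟨0, by simpa using hB⟩)
    refine C.invApprox_close (hnB _ (by omega)) (hnB _ hj) ?_
    set n := C.lev (j + 2)
    obtain ⟨t, ht, hjt⟩ := ((hz.and (eventually_ge_atTop n))).exists
    rw [C.phi_eq hjt ht hg]
    -- from stage `t` back to stage `j + 2`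
    have hdown : ∀ i, j + 2 ≤ i → (idx (C.Q i) (C.pt i z) : ZMod (C.Q (j + 2)))
        = (idx (C.Q (j + 2)) (C.pt (j + 2) z) : ZMod (C.Q (j + 2))) := by
      intro i hi
      induction i, hi using Nat.le_induction with
      | base => rfl
      | succ i hi ih =>
        rw [← ih, ← C.pt_succ i z]
        refine (idx_gmap _ _ (C.Q_pos i) (C.Q_dvd i) (C.Q_pos _) i ?_ (hnB i (by omega))).symm
        clear ih
        induction i, hi using Nat.le_induction with
        | base => exact dvd_rfl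
        | succ i _ ih => exact ih.trans (C.Q_dvd i)
    have h := (ZMod.intCast_eq_intCast_iff' _ _ _).1
      (hdown t (le_trans (C.le_lev _) hjt))
    rw [W]
    refine h.trans (Int.emod_eq_of_lt (idx_range (C.Q_pos _) _).1 (idx_range (C.Q_pos _) _).2)
  refine Tendsto.limUnder_eq ?_
  rw [tendsto_iff_dist_tendsto_zero]
  refine squeeze_zero' (Eventually.of_forall fun _ => dist_nonneg)
    (eventually_atTop.2 ⟨m, fun j hj => by rw [dist_comm]; exact key j hj⟩)
    (tendsto_pow_atTop_nhds_zero_of_lt_one (by norm_num) (by norm_num))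

lemma W_uniform {n j : ℕ} (h : n ≤ j) {i : ℤ} (hi : 0 ≤ i) (hi' : i < C.q n) :
    volume {z | C.W n j z = i} = (C.q n : ℝ≥0∞)⁻¹ := by
  set A : ℕ → Set T2 := fun a => {z | C.W n j z = (a : ℤ)}
  have hAm : ∀ a, MeasurableSet (A a) := fun a =>
    measurableSet_eq_fun (C.measurable_W n j) measurable_const
  have hstep : ∀ a, a + 1 < C.q n → volume (A (a + 1)) = volume (A a) := by
    intro a ha
    have e : C.T j ⁻¹' A (a + 1) = A a := by
      ext z
      simp only [A, mem_preimage, mem_setOf_eq, C.W_T h]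
      obtain ⟨h1, h2⟩ := C.W_range n j z
      rcases eq_or_lt_of_le (show C.W n j z + 1 ≤ C.q n by omega) with he | he
      · rw [he, Int.emod_self]
        push_cast
        omega
      · rw [Int.emod_eq_of_lt (by omega) he]
        push_cast
        omega
    rw [← e, (C.T_mp j).measure_preimage (hAm _).nullMeasurableSet]
  have hall : ∀ a, a < C.q n → volume (A a) = volume (A 0) := by
    intro a
    induction a with
    | zero => intro _; rfl
    | succ a ih => intro ha; rw [hstep a ha, ih (by omega)]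
  have hcover : (univ : Set T2) = ⋃ a ∈ Finset.range (C.q n), A a := by
    ext z
    simp only [mem_univ, mem_iUnion, Finset.mem_range, true_iff, A, mem_setOf_eq]
    obtain ⟨h1, h2⟩ := C.W_range n j z
    exact ⟨(C.W n j z).toNat, by omega, by omega⟩
  have hsum := congrArg (volume : Measure T2) hcover
  rw [measure_biUnion_finset (fun a _ b _ hab => disjoint_left.2 fun z h1 h2 =>
      hab (by simp only [A, mem_setOf_eq] at h1 h2; omega)) (fun a _ => hAm a),
    Finset.sum_congr rfl (fun a ha => hall a (Finset.mem_range.1 ha)), Finset.sum_const,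
    Finset.card_range, nsmul_eq_mul] at hsum
  have hu : volume (univ : Set T2) = 1 := by
    rw [Measure.volume_eq_prod, ← univ_prod_univ, Measure.prod_prod]; simp
  rw [hu] at hsum
  obtain ⟨a, rfl⟩ : ∃ a : ℕ, (a : ℤ) = i := ⟨i.toNat, Int.toNat_of_nonneg hi⟩
  show volume (A a) = _
  rw [hall a (by omega)]
  exact ENNReal.eq_inv_of_mul_eq_one_left (by rw [mul_comm]; exact hsum.symm)

/-- Haar measure of the odometer, as the image of volume. -/
noncomputable def mu : Measure (Om C.q) := Measure.map C.phi volume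

lemma phi_mp : MeasurePreserving C.phi volume C.mu := ⟨C.measurable_phi, rfl⟩

lemma mu_cyl {n : ℕ} {i : ℤ} (hi : 0 ≤ i) (hi' : i < C.q n) :
    C.mu {x | x.1 n = i} = (C.q n : ℝ≥0∞)⁻¹ := by
  rw [mu, Measure.map_apply C.measurable_phi
    (measurableSet_eq_fun (C.measurable_coord n) measurable_const)]
  have hlim : Tendsto (fun m => volume {z | C.W n m z = i}) atTop
      (𝓝 (volume (C.phi ⁻¹' {x | x.1 n = i}))) := by
    refine tendsto_measure_of_ae_tendsto_indicator_of_isFiniteMeasure atTop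
      (C.measurable_phi (measurableSet_eq_fun (C.measurable_coord n) measurable_const))
      (fun m => measurableSet_eq_fun (C.measurable_W n m) measurable_const) ?_
    filter_upwards [C.ae_eventually_tail] with z hz
    filter_upwards [hz, eventually_ge_atTop n] with m hm hn
    simp only [mem_setOf_eq, mem_preimage, C.phi_eq hn hm (C.good_of_ev hz)]
  refine tendsto_nhds_unique hlim (tendsto_const_nhds.congr' ?_)
  filter_upwards [eventually_ge_atTop n] with m hm
  rw [C.W_uniform hm hi hi']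

end Chain

end Vale.Agent.P109
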