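import Mathlib
import Vale.Agent.P109.Model

/-! The conull invariant sets of the isomorphism and uniqueness of the odometer measure (P109). -/

open MeasureTheory Filter Topology Set
open scoped ContDiff ENNReal

namespace Vale.Agent.P109.Chain

variable (C : Chain)

lemma measurableSet_cyl (n : ℕ) (i : ℤ) : MeasurableSet {x : Om C.q | x.1 n = i} :=
  measurableSet_eq_fun (C.measurable_coord n) measurable_const

lemma isProb_mu : IsProbabilityMeasure C.mu := by
  constructor
  rw [mu, Measure.map_apply C.measurable_phi MeasurableSet.univ, preimage_univ,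
    Measure.volume_eq_prod, ← univ_prod_univ, Measure.prod_prod]
  simp

/-- A probability measure on the odometer is determined by its cylinders. -/
lemma mu_unique (ν : Measure (Om C.q)) [IsProbabilityMeasure ν]
    (h : ∀ n i, 0 ≤ i → i < (C.q n : ℤ) → ν {x | x.1 n = i} = (C.q n : ℝ≥0∞)⁻¹) : ν = C.mu := by
  haveI := C.isProb_mu
  set K : Set (Set (Om C.q)) := insert ∅ {s | ∃ n i, s = {x : Om C.q | x.1 n = i}} with hK
  have hpi : IsPiSystem K := by
    have key : ∀ n m (i k : ℤ), n ≤ m → ({x : Om C.q | x.1 n = i} ∩ {x | x.1 m = k}) ∈ K := by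
      intro n m i k hnm
      have hcomp : ∀ x : Om C.q, x.1 m % (C.q n : ℤ) = x.1 n := by
        intro x
        clear k
        induction m, hnm using Nat.le_induction with
        | base => exact Int.emod_eq_of_lt (x.2 n).1.1 (x.2 n).1.2
        | succ m hm ih =>
          rw [← ih, ← (x.2 m).2, Int.emod_emod_of_dvd _ (Int.natCast_dvd_natCast.2 (C.dvd_le hm))]
      by_cases hk : k % (C.q n : ℤ) = i
      · refine mem_insert_of_mem _ ⟨m, k, ?_⟩
        ext x
        exact ⟨fun hx => hx.2, fun hx => ⟨by
          show x.1 n = i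
          rw [← hcomp x, show x.1 m = k from hx, hk], hx⟩⟩
      · refine mem_insert_iff.2 (Or.inl (eq_empty_of_forall_notMem fun x hx => hk ?_))
        rw [← show x.1 m = k from hx.2, hcomp x]; exact hx.1
    intro s hs t ht hne
    rcases hs with rfl | ⟨n, i, rfl⟩
    · simp at hne
    rcases ht with rfl | ⟨m, k, rfl⟩
    · simp at hne
    rcases le_total n m with hnm | hnm
    · exact key n m i k hnm
    · rw [inter_comm]; exact key m n k i hnm
  have hgen : (inferInstance : MeasurableSpace (Om C.q)) = MeasurableSpace.generateFrom K := by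
    refine le_antisymm ?_ (MeasurableSpace.generateFrom_le ?_)
    · have : @Measurable _ _ (MeasurableSpace.generateFrom K) _
          (fun x : Om C.q => (x.1 : ℕ → ℤ)) := by
        refine @measurable_pi_lambda _ _ _ (MeasurableSpace.generateFrom K) _ _ fun n => ?_
        refine @measurable_to_countable' ℤ (Om C.q) _ _ (MeasurableSpace.generateFrom K) _ fun i => ?_
        exact MeasurableSpace.measurableSet_generateFrom (mem_insert_of_mem _ ⟨n, i, rfl⟩)
      exact this.comap_le
    · rintro s (rfl | ⟨n, i, rfl⟩)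
      · exact MeasurableSet.empty
      · exact C.measurableSet_cyl n i
  refine ext_of_generate_finite K hgen hpi ?_ (by rw [measure_univ, measure_univ])
  rintro s (rfl | ⟨n, i, rfl⟩)
  · simp
  · by_cases hi : 0 ≤ i ∧ i < (C.q n : ℤ)
    · rw [h n i hi.1 hi.2, C.mu_cyl hi.1 hi.2]
    · have : {x : Om C.q | x.1 n = i} = ∅ :=
        eq_empty_of_forall_notMem fun x hx => hi (by rw [← show x.1 n = i from hx]; exact (x.2 n).1)
      simp [this]

omit C in
/-- A conull set contains a conull set invariant under a measure preserving homeomorphism. -/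
lemma invariant_core (f : T2 ≃ₜ T2) (hf : MeasurePreserving f volume volume) (A : Set T2)
    (hAm : MeasurableSet A) (hAc : volume Aᶜ = 0) :
    ∃ R, MeasurableSet R ∧ volume Rᶜ = 0 ∧ R ⊆ A ∧ (∀ z ∈ R, f z ∈ R) ∧ (∀ z ∈ R, f.symm z ∈ R) := by
  have hsymm : MeasurePreserving f.symm volume volume :=
    MeasurePreserving.symm f.toMeasurableEquiv hf
  set g : ℤ → T2 → T2 := fun k => if 0 ≤ k then f^[k.toNat] else f.symm^[(-k).toNat] with hg
  have hgmp : ∀ k, MeasurePreserving (g k) volume volume := by
    intro k; simp only [hg]; split_ifs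
    exacts [hf.iterate _, hsymm.iterate _]
  have hstep : ∀ k z, g k (f z) = g (k + 1) z := by
    intro k z
    simp only [hg]
    rcases lt_trichotomy k (-1) with h | rfl | h
    · rw [if_neg (by omega), if_neg (by omega),
        show (-k).toNat = (-(k + 1)).toNat + 1 by omega, Function.iterate_succ_apply,
        Homeomorph.symm_apply_apply]
    · simp
    · rw [if_pos (by omega), if_pos (by omega), show (k + 1).toNat = k.toNat + 1 by omega,
        Function.iterate_succ_apply]
  refine ⟨⋂ k, g k ⁻¹' A, MeasurableSet.iInter fun k => (hgmp k).measurable hAm, ?_, ?_, ?_, ?_⟩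
  · rw [compl_iInter]
    refine measure_iUnion_null fun k => ?_
    rw [← preimage_compl, (hgmp k).measure_preimage hAm.compl.nullMeasurableSet, hAc]
  · intro z hz
    simpa [hg] using mem_iInter.1 hz 0
  · intro z hz
    refine mem_iInter.2 fun k => ?_
    rw [mem_preimage, hstep]
    exact mem_iInter.1 hz (k + 1)
  · intro z hz
    refine mem_iInter.2 fun k => ?_
    rw [mem_preimage]
    have e := hstep (k - 1) (f.symm z)
    rw [Homeomorph.apply_symm_apply, sub_add_cancel] at e
    rw [← e]
    exact mem_iInter.1 hz (k - 1)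

/-- The two conull invariant sets carrying the isomorphism. -/
lemma exists_iso : ∃ (X0 : Set (Om C.q)) (M0 : Set T2),
    MeasurableSet X0 ∧ MeasurableSet M0 ∧ C.mu X0ᶜ = 0 ∧ volume M0ᶜ = 0 ∧
    C.succ '' X0 = X0 ∧ C.S '' M0 = M0 ∧ BijOn C.psi X0 M0 ∧ InvOn C.phi C.psi X0 M0 ∧
    MeasurePreserving C.psi C.mu volume ∧ (∀ x ∈ X0, C.psi (C.succ x) = C.S (C.psi x)) := by
  set A : Set T2 := {z | C.psi (C.phi z) = z} ∩ {z | C.phi (C.S z) = C.succ (C.phi z)} with hA
  have hψφ : MeasurableSet {z | C.psi (C.phi z) = z} :=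
    measurableSet_eq_fun (C.measurable_psi.comp C.measurable_phi) measurable_id
  have hAm : MeasurableSet A := by
    refine hψφ.inter ?_
    have e : {z | C.phi (C.S z) = C.succ (C.phi z)}
        = ⋂ n, {z | (C.phi (C.S z)).1 n = (C.succ (C.phi z)).1 n} := by
      ext z
      simp only [mem_iInter]
      exact ⟨fun h n => congrArg (fun x : Om C.q => x.1 n) h, fun h => Subtype.ext (funext h)⟩
    rw [e]
    exact MeasurableSet.iInter fun n => measurableSet_eq_fun
      ((C.measurable_coord n).comp (C.measurable_phi.comp C.S.continuous.measurable))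
      ((C.measurable_coord n).comp (C.measurable_succ.comp C.measurable_phi))
  have hAc : volume Aᶜ = 0 := by
    have h := C.ae_psi_phi.and C.ae_phi_S
    exact mem_ae_iff.1 h
  obtain ⟨R, hRm, hRc, hRA, hRS, hRS'⟩ := invariant_core C.S C.S_mp A hAm hAc
  set X0 : Set (Om C.q) := C.psi ⁻¹' R ∩ {x | C.phi (C.psi x) = x} with hX
  have hmapR : ∀ z ∈ R, C.phi z ∈ X0 := by
    intro z hz
    have e : C.psi (C.phi z) = z := (hRA hz).1
    exact ⟨by rw [mem_preimage, e]; exact hz, congrArg C.phi e⟩
  have hsucc : ∀ x ∈ X0, C.succ x = C.phi (C.S (C.psi x)) := by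
    rintro x ⟨h1, h2⟩
    rw [(hRA h1).2, h2]
  have hXm : MeasurableSet X0 := by
    refine (C.measurable_psi hRm).inter ?_
    have e : {x | C.phi (C.psi x) = x} = ⋂ n, {x : Om C.q | (C.phi (C.psi x)).1 n = x.1 n} := by
      ext x
      simp only [mem_iInter]
      exact ⟨fun h n => congrArg (fun x : Om C.q => x.1 n) h, fun h => Subtype.ext (funext h)⟩
    rw [e]
    exact MeasurableSet.iInter fun n => measurableSet_eq_fun
      ((C.measurable_coord n).comp (C.measurable_phi.comp C.measurable_psi)) (C.measurable_coord n)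
  have hXc : C.mu X0ᶜ = 0 := by
    rw [mu, Measure.map_apply C.measurable_phi hXm.compl]
    exact measure_mono_null (fun z hz hzR => hz (hmapR z hzR)) hRc
  refine ⟨X0, R, hXm, hRm, hXc, hRc, ?_, ?_, ?_, ?_, ?_, ?_⟩
  · ext x
    constructor
    · rintro ⟨y, hy, rfl⟩
      rw [hsucc y hy]; exact hmapR _ (hRS _ hy.1)
    · intro hx
      refine ⟨C.phi (C.S.symm (C.psi x)), hmapR _ (hRS' _ hx.1), ?_⟩
      rw [← (hRA (hRS' _ hx.1)).2, Homeomorph.apply_symm_apply]
      exact hx.2
  · ext z
    constructor
    · rintro ⟨y, hy, rfl⟩; exact hRS y hy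
    · intro hz; exact ⟨C.S.symm z, hRS' z hz, C.S.apply_symm_apply z⟩
  · exact InvOn.bijOn (f' := C.phi) ⟨fun x hx => hx.2, fun z hz => (hRA hz).1⟩
      (fun x hx => hx.1) hmapR
  · exact ⟨fun x hx => hx.2, fun z hz => (hRA hz).1⟩
  · refine ⟨C.measurable_psi, ?_⟩
    rw [mu, Measure.map_map C.measurable_psi C.measurable_phi]
    refine (Measure.map_congr ?_).trans Measure.map_id
    exact C.ae_psi_phi
  · intro x hx
    rw [hsucc x hx]
    exact (hRA (hRS _ hx.1)).1

end Vale.Agent.P109.Chain
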