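import Mathlib
import Vale.Agent.P109.Sol.Haar

/-! An injective equivariant map from a smooth system gives an isomorphism with a rotation (P109). -/

open MeasureTheory Filter Topology Set

namespace Vale.Agent.P109.Gen

open Vale.Agent.P109.Sol (Dual)

variable {Γ : AddSubgroup UnitAddCircle}

/-- Translation of the dual group. -/
def tr (h χ : Dual Γ) : Dual Γ :=
  ⟨fun γ => χ.1 γ + h.1 γ, fun a b => by simp only [χ.2, h.2]; abel⟩

/-- The inclusion. -/
def incl (Γ : AddSubgroup UnitAddCircle) : Dual Γ := ⟨fun γ => (γ : UnitAddCircle), fun _ _ => rfl⟩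

lemma measurable_tr (h : Dual Γ) : Measurable (tr h) := by
  refine Measurable.subtype_mk (measurable_pi_lambda _ fun γ => ?_)
  exact ((measurable_pi_apply γ).comp measurable_subtype_coe).add_const _

/-- A conull set contains a conull invariant set. -/
lemma invariant_core {M : Type} [TopologicalSpace M] [MeasurableSpace M] [BorelSpace M]
    (ν : Measure M) (f : M ≃ₜ M) (hf : MeasurePreserving f ν ν) (A : Set M)
    (hAm : MeasurableSet A) (hAc : ν Aᶜ = 0) :
    ∃ R, MeasurableSet R ∧ ν Rᶜ = 0 ∧ R ⊆ A ∧ (∀ z ∈ R, f z ∈ R) ∧ (∀ z ∈ R, f.symm z ∈ R) := by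
  have hsymm : MeasurePreserving f.symm ν ν := MeasurePreserving.symm f.toMeasurableEquiv hf
  set g : ℤ → M → M := fun k => if 0 ≤ k then f^[k.toNat] else f.symm^[(-k).toNat] with hg
  have hgmp : ∀ k, MeasurePreserving (g k) ν ν := by
    intro k; simp only [hg]; split_ifs
    exacts [hf.iterate _, hsymm.iterate _]
  have hstep : ∀ k z, g k (f z) = g (k + 1) z := by
    intro k z
    simp only [hg]
    rcases lt_trichotomy k (-1) with h | rfl | h
    · rw [if_neg (by omega), if_neg (by omega),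
        show (-k).toNat = (-(k + 1)).toNat + 1 by omega, Function.iterate_succ_apply,
        Homeomorph.symm_apply_apply]
    · simp
    · rw [if_pos (by omega), if_pos (by omega), show (k + 1).toNat = k.toNat + 1 by omega,
        Function.iterate_succ_apply]
  refine ⟨⋂ k, g k ⁻¹' A, MeasurableSet.iInter fun k => (hgmp k).measurable hAm, ?_, ?_, ?_, ?_⟩
  · rw [compl_iInter]
    refine measure_iUnion_null fun k => ?_
    rw [← preimage_compl, (hgmp k).measure_preimage hAm.compl.nullMeasurableSet, hAc]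
  · intro z hz
    simpa [hg] using mem_iInter.1 hz 0
  · intro z hz
    refine mem_iInter.2 fun k => ?_
    rw [mem_preimage, hstep]
    exact mem_iInter.1 hz (k + 1)
  · intro z hz
    refine mem_iInter.2 fun k => ?_
    rw [mem_preimage]
    have e := hstep (k - 1) (f.symm z)
    rw [Homeomorph.apply_symm_apply, sub_add_cancel] at e
    rw [← e]
    exact mem_iInter.1 hz (k - 1)

variable [Countable Γ]

/-- The reduction: equivariant, injective off a null set. -/
lemma iso_of_factor {M : Type} [TopologicalSpace M] [PolishSpace M] [MeasurableSpace M]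
    [BorelSpace M] [Inhabited M] (ν : Measure M) [IsProbabilityMeasure ν] (S : M ≃ₜ M)
    (hS : MeasurePreserving S ν ν) (Φ : M → Dual Γ) (hΦ : Measurable Φ)
    (heq : ∀ᵐ z ∂ν, Φ (S z) = tr (incl Γ) (Φ z))
    (A : Set M) (hAm : MeasurableSet A) (hAc : ν Aᶜ = 0) (hinj : InjOn Φ A) :
    ∃ μ : Measure (Dual Γ), IsProbabilityMeasure μ ∧ (∀ h, MeasurePreserving (tr h) μ μ) ∧
      (∀ ρ : Measure (Dual Γ), IsProbabilityMeasure ρ → MeasurePreserving (tr (incl Γ)) ρ ρ →
        ρ = μ) ∧
      ∃ (Θ : Dual Γ → M) (Ψ : M → Dual Γ) (X0 : Set (Dual Γ)) (M0 : Set M),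
        MeasurableSet X0 ∧ MeasurableSet M0 ∧ μ X0ᶜ = 0 ∧ ν M0ᶜ = 0 ∧
        tr (incl Γ) '' X0 = X0 ∧ S '' M0 = M0 ∧ BijOn Θ X0 M0 ∧ InvOn Ψ Θ X0 M0 ∧
        MeasurePreserving Θ μ ν ∧ MeasurePreserving Ψ ν μ ∧
        ∀ x ∈ X0, Θ (tr (incl Γ) x) = S (Θ x) := by
  classical
  have hclosed : IsClosed {χ : Γ → UnitAddCircle | ∀ a b, χ (a + b) = χ a + χ b} := by
    simp only [setOf_forall]
    exact isClosed_iInter fun a => isClosed_iInter fun b => isClosed_eq (by fun_prop) (by fun_prop)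
  have hpol : PolishSpace (Dual Γ) := hclosed.polishSpace
  have hbor : BorelSpace (Dual Γ) := Subtype.borelSpace _
  have hsc : SecondCountableTopology (Dual Γ) := hpol.toSecondCountableTopology
  have hcs : MeasurableSpace.CountablySeparated (Dual Γ) :=
    inferInstance
  set μ := Measure.map Φ ν with hμ
  have hμp : IsProbabilityMeasure μ := Measure.isProbabilityMeasure_map hΦ.aemeasurable
  have hrot : MeasurePreserving (tr (incl Γ)) μ μ := by
    refine ⟨measurable_tr _, ?_⟩
    rw [hμ, Measure.map_map (measurable_tr _) hΦ]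
    have e : (tr (incl Γ) ∘ Φ) =ᵐ[ν] (Φ ∘ S) := by
      filter_upwards [heq] with z hz
      exact hz.symm
    rw [Measure.map_congr e, ← Measure.map_map hΦ S.continuous.measurable, hS.map_eq]
  have huniq : ∀ ρ : Measure (Dual Γ), IsProbabilityMeasure ρ →
      MeasurePreserving (tr (incl Γ)) ρ ρ → ρ = μ := fun ρ hρ hρmp =>
    Sol.invariant_unique μ ρ (tr (incl Γ)) (fun _ _ => rfl) hrot hρmp
  have htr : ∀ h, MeasurePreserving (tr h) μ μ := by
    intro h
    refine ⟨measurable_tr h, huniq _ (Measure.isProbabilityMeasure_map (measurable_tr h).aemeasurable)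
      ⟨measurable_tr _, ?_⟩⟩
    have e : tr (incl Γ) ∘ tr h = tr h ∘ tr (incl Γ) := by
      funext χ
      refine Subtype.ext (funext fun γ => ?_)
      simp only [Function.comp_apply, tr]; abel
    rw [Measure.map_map (measurable_tr _) (measurable_tr _), e,
      ← Measure.map_map (measurable_tr _) (measurable_tr _), hrot.map_eq]
  refine ⟨μ, hμp, htr, huniq, ?_⟩
  obtain ⟨E, hEsub, hEm, hEc⟩ := exists_measurable_superset_of_null (ae_iff.1 heq)
  set A' := A ∩ Eᶜ
  have hA'c : ν A'ᶜ = 0 := by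
    rw [compl_inter, compl_compl]; exact measure_union_null hAc hEc
  obtain ⟨R, hRm, hRc, hRA, hRS, hRS'⟩ := invariant_core ν S hS A' (hAm.inter hEm.compl) hA'c
  have hReq : ∀ z ∈ R, Φ (S z) = tr (incl Γ) (Φ z) := fun z hz => by
    by_contra hne
    exact (hRA hz).2 (hEsub hne)
  have hRinj : InjOn Φ R := hinj.mono fun z hz => (hRA hz).1
  have hXm : MeasurableSet (Φ '' R) := hRm.image_of_measurable_injOn hΦ hRinj
  have hemb : MeasurableEmbedding (fun z : R => Φ z) :=
    { injective := fun a b hab => Subtype.ext (hRinj a.2 b.2 hab)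
      measurable := hΦ.comp measurable_subtype_coe
      measurableSet_image' := fun s hs => by
        have hs' : MeasurableSet (Subtype.val '' s : Set M) := hRm.subtype_image hs
        rw [show (fun z : R => Φ z) '' s = Φ '' (Subtype.val '' s) by rw [image_image]]
        exact hs'.image_of_measurable_injOn hΦ (hRinj.mono (Subtype.coe_image_subset _ _)) }
  set Θ : Dual Γ → M := Function.extend (fun z : R => Φ z) Subtype.val (fun _ => default)
  have hΘ : Measurable Θ := hemb.measurable_extend measurable_subtype_coe measurable_const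
  have hΘΦ : ∀ z ∈ R, Θ (Φ z) = z := fun z hz =>
    hemb.injective.extend_apply Subtype.val _ ⟨z, hz⟩
  refine ⟨Θ, Φ, Φ '' R, R, hXm, hRm, ?_, hRc, ?_, ?_, ?_, ?_, ?_, ⟨hΦ, rfl⟩, ?_⟩
  · rw [hμ, Measure.map_apply hΦ hXm.compl]
    exact measure_mono_null (fun z hz hzR => hz (mem_image_of_mem Φ hzR)) hRc
  · ext x
    constructor
    · rintro ⟨_, ⟨z, hz, rfl⟩, rfl⟩
      exact ⟨S z, hRS z hz, hReq z hz⟩
    · rintro ⟨z, hz, rfl⟩
      refine ⟨Φ (S.symm z), ⟨S.symm z, hRS' z hz, rfl⟩, ?_⟩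
      rw [← hReq _ (hRS' z hz), Homeomorph.apply_symm_apply]
  · ext z
    constructor
    · rintro ⟨y, hy, rfl⟩; exact hRS y hy
    · intro hz; exact ⟨S.symm z, hRS' z hz, S.apply_symm_apply z⟩
  · refine InvOn.bijOn (f' := Φ) ⟨?_, fun z hz => hΘΦ z hz⟩ ?_ (mapsTo_image Φ R)
    · rintro _ ⟨z, hz, rfl⟩; rw [hΘΦ z hz]
    · rintro _ ⟨z, hz, rfl⟩; rw [hΘΦ z hz]; exact hz
  · refine ⟨?_, fun z hz => hΘΦ z hz⟩
    rintro _ ⟨z, hz, rfl⟩; rw [hΘΦ z hz]
  · refine ⟨hΘ, ?_⟩
    rw [hμ, Measure.map_map hΘ hΦ]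
    refine (Measure.map_congr ?_).trans Measure.map_id
    filter_upwards [mem_ae_iff.2 hRc] with z hz
    exact hΘΦ z hz
  · rintro _ ⟨z, hz, rfl⟩
    rw [← hReq z hz, hΘΦ z hz, hΘΦ _ (hRS z hz)]

end Vale.Agent.P109.Gen
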