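import Mathlib
import Vale.Agent.P109.Mix.Model
import Vale.Agent.P109.Sol.Model
import Vale.Agent.P109.Reduce

/-! Smooth models for all non finitely generated groups of finite rank (P109). -/

open MeasureTheory Filter Topology Set
open scoped ContDiff ENNReal

namespace Vale.Agent.P109.Gen

open Vale.Agent.P109.Sol (Dual)
open Vale.Agent.P109.Mix (FT FV IsTor zeta comb IndepT SpanT)

/-- A smooth torus map whose factor map into the dual group is injective off a null set. -/
structure Base (Γ : AddSubgroup UnitAddCircle) where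
  d : ℕ
  S : FT d ≃ₜ FT d
  F : FV d → FV d
  G : FV d → FV d
  smoothF : ContDiff ℝ ∞ F
  smoothG : ContDiff ℝ ∞ G
  FG : ∀ p, F (G p) = p
  GF : ∀ p, G (F p) = p
  hF : ∀ p, S (Mix.proj p) = Mix.proj (F p)
  hG : ∀ p, S.symm (Mix.proj p) = Mix.proj (G p)
  mp : MeasurePreserving S volume volume
  Φ : FT d → Dual Γ
  hΦ : Measurable Φ
  eqv : ∀ᵐ z ∂(volume : Measure (FT d)), Φ (S z) = tr (incl Γ) (Φ z)
  A : Set (FT d)
  hAm : MeasurableSet A
  hAc : volume Aᶜ = 0
  inj : InjOn Φ A

lemma base_mix {n : ℕ} (H : Mix.Grp n) [Countable H.Γ] : Nonempty (Base H.Γ) :=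
  ⟨{ d := Mix.dim n, S := H.S, F := H.seqF.lim, G := H.seqG.lim
     smoothF := H.seqF.lim_smooth, smoothG := H.seqG.lim_smooth
     FG := fun p => H.seqF.lim_inv H.seqG H.cFG p
     GF := fun p => H.seqG.lim_inv H.seqF H.cGF p
     hF := H.S_lift, hG := H.S_symm_lift, mp := H.S_mp
     Φ := H.phi, hΦ := H.measurable_phi, eqv := H.ae_phi_S
     A := H.GoodPts, hAm := H.measurableSet_GoodPts, hAc := H.GoodPts_conull
     inj := H.phi_injOn }⟩

/-- Writing two halves of a torus as one. -/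
noncomputable def flat (r : ℕ) : Sol.TT r ≃ₜ FT ((r + 1) + (r + 1)) where
  toFun z := Fin.append z.1 z.2
  invFun y := (fun i => y (Fin.castAdd (r + 1) i), fun i => y (Fin.natAdd (r + 1) i))
  left_inv z := by simp only [Fin.append_left, Fin.append_right]
  right_inv y := Fin.append_castAdd_natAdd
  continuous_toFun := by
    refine continuous_pi fun i => ?_
    cases i using Fin.addCases with
    | left i => simp only [Fin.append_left]; fun_prop
    | right i => simp only [Fin.append_right]; fun_prop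
  continuous_invFun := by fun_prop

/-- The same on the covering spaces. -/
def flatV (r : ℕ) (p : Sol.E r) : FV ((r + 1) + (r + 1)) := Fin.append p.1 p.2

/-- Its inverse. -/
def splitV (r : ℕ) (q : FV ((r + 1) + (r + 1))) : Sol.E r :=
  (fun i => q (Fin.castAdd (r + 1) i), fun i => q (Fin.natAdd (r + 1) i))

lemma split_flat (r : ℕ) (p : Sol.E r) : splitV r (flatV r p) = p := by simp only [splitV, flatV, Fin.append_left, Fin.append_right]

lemma flat_split (r : ℕ) (q : FV ((r + 1) + (r + 1))) : flatV r (splitV r q) = q :=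
  Fin.append_castAdd_natAdd

lemma flatV_smooth (r : ℕ) : ContDiff ℝ ∞ (flatV r) := by
  refine contDiff_pi.2 fun i => ?_
  cases i using Fin.addCases with
  | left i => simp only [flatV, Fin.append_left]; exact (contDiff_apply ℝ ℝ i).comp contDiff_fst
  | right i => simp only [flatV, Fin.append_right]; exact (contDiff_apply ℝ ℝ i).comp contDiff_snd

lemma splitV_smooth (r : ℕ) : ContDiff ℝ ∞ (splitV r) :=
  (contDiff_pi.2 fun _ => contDiff_apply ℝ ℝ _).prodMk (contDiff_pi.2 fun _ => contDiff_apply ℝ ℝ _)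

lemma flat_proj (r : ℕ) (p : Sol.E r) : flat r (Sol.proj p) = Mix.proj (flatV r p) := by
  funext i
  cases i using Fin.addCases with
  | left i =>
    simp only [flat, Homeomorph.homeomorph_mk_coe, Equiv.coe_fn_mk, flatV, Mix.proj, Sol.proj_apply,
      Sol.projV, Fin.append_left]
  | right i =>
    simp only [flat, Homeomorph.homeomorph_mk_coe, Equiv.coe_fn_mk, flatV, Mix.proj, Sol.proj_apply,
      Sol.projV, Fin.append_right]

lemma flat_symm_proj (r : ℕ) (q : FV ((r + 1) + (r + 1))) :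
    (flat r).symm (Mix.proj q) = Sol.proj (splitV r q) := rfl

lemma flat_mp (r : ℕ) : MeasurePreserving (flat r) volume volume := by
  refine ⟨(flat r).continuous.measurable, ?_⟩
  rw [volume_pi]
  refine (Measure.pi_eq fun s hs => ?_).symm
  rw [Measure.map_apply (flat r).continuous.measurable (MeasurableSet.univ_pi hs)]
  have e : flat r ⁻¹' univ.pi s = (univ.pi fun i => s (Fin.castAdd (r + 1) i)) ×ˢ
      (univ.pi fun i => s (Fin.natAdd (r + 1) i)) := by
    ext z
    simp only [mem_preimage, Set.mem_univ_pi, mem_prod]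
    rw [Fin.forall_fin_add]
    simp only [flat, Homeomorph.homeomorph_mk_coe, Equiv.coe_fn_mk, Fin.append_left,
      Fin.append_right]
  rw [e, Measure.volume_eq_prod, Measure.prod_prod, volume_pi, Measure.pi_pi, Measure.pi_pi,
    Fin.prod_univ_add (a := r + 1) (b := r + 1)]

lemma base_sol {n : ℕ} (H : Sol.Grp n) [Countable H.Γ] : Nonempty (Base H.Γ) :=
  ⟨{ d := (n + 1) + (n + 1), S := (flat n).symm.trans (H.S.trans (flat n))
     F := flatV n ∘ H.seqF.lim ∘ splitV n, G := flatV n ∘ H.seqG.lim ∘ splitV n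
     smoothF := (flatV_smooth n).comp (H.seqF.lim_smooth.comp (splitV_smooth n))
     smoothG := (flatV_smooth n).comp (H.seqG.lim_smooth.comp (splitV_smooth n))
     FG := fun p => by
       simp only [Function.comp_apply, split_flat, H.seqF.lim_inv H.seqG H.cFG, flat_split]
     GF := fun p => by
       simp only [Function.comp_apply, split_flat, H.seqG.lim_inv H.seqF H.cGF, flat_split]
     hF := fun p => by
       simp only [Homeomorph.trans_apply, flat_symm_proj, Function.comp_apply]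
       rw [← flat_proj]; congr 1; exact H.S_lift _
     hG := fun p => by
       simp only [Homeomorph.symm_trans_apply, Homeomorph.symm_symm, flat_symm_proj,
         Function.comp_apply]
       rw [← flat_proj]; congr 1; exact H.S_symm_lift _
     mp := (flat_mp n).comp (H.S_mp.comp
       (MeasurePreserving.symm (flat n).toMeasurableEquiv (flat_mp n)))
     Φ := H.phi ∘ (flat n).symm, hΦ := H.measurable_phi.comp (flat n).symm.continuous.measurable
     eqv := by
       filter_upwards [(MeasurePreserving.symm (flat n).toMeasurableEquiv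
         (flat_mp n)).quasiMeasurePreserving.ae H.ae_phi_S] with z hz
       simp only [Function.comp_apply, Homeomorph.trans_apply, Homeomorph.symm_apply_apply]
       exact hz
     A := (flat n).symm ⁻¹' {z | H.psiInv (H.phi z) = z}
     hAm := (flat n).symm.continuous.measurable
       (measurableSet_eq_fun (H.measurable_psiInv.comp H.measurable_phi) measurable_id)
     hAc := (MeasurePreserving.symm (flat n).toMeasurableEquiv
       (flat_mp n)).quasiMeasurePreserving.ae H.ae_psi_phi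
     inj := fun a ha b hb hab => (flat n).symm.injective (by
       have h1 : H.psiInv (H.phi ((flat n).symm a)) = (flat n).symm a := ha
       have h2 : H.psiInv (H.phi ((flat n).symm b)) = (flat n).symm b := hb
       rw [← h1, ← h2, show H.phi ((flat n).symm a) = H.phi ((flat n).symm b) from hab]) }⟩

/-- Probability volume on `q` copies of a torus. -/
noncomputable def vol (q d : ℕ) : Measure (Fin q × FT d) :=
  (q : ℝ≥0∞)⁻¹ • (Measure.count : Measure (Fin q)).prod volume

lemma vol_prob (p d : ℕ) : IsProbabilityMeasure (vol (p + 1) d) := by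
  constructor
  rw [vol, Measure.smul_apply, smul_eq_mul, ← univ_prod_univ, Measure.prod_prod,
    Measure.count_univ, measure_univ, mul_one]
  simp only [ENat.card_eq_coe_fintype_card, Fintype.card_fin, ENat.toENNReal_coe]
  exact ENNReal.inv_mul_cancel (by simp) (ENNReal.natCast_ne_top _)

/-- Cyclic extension of a model by `p + 1` sheets. -/
lemma extend {Γ Γ' : AddSubgroup UnitAddCircle} [Countable Γ] (p : ℕ) (hζ : zeta (p + 1) ∈ Γ)
    (hmul : ∀ γ ∈ Γ, ((p + 1 : ℕ) : ℤ) • γ ∈ Γ')
    (hsurj : ∀ δ ∈ Γ', ∃ γ ∈ Γ, ((p + 1 : ℕ) : ℤ) • γ = δ) (B : Base Γ') :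
    ∃ (S : (Fin (p + 1) × FT B.d) ≃ₜ (Fin (p + 1) × FT B.d)) (μ : Measure (Dual Γ)),
      (∃ (σ : Equiv.Perm (Fin (p + 1))) (F G : Fin (p + 1) → FV B.d → FV B.d), ∀ i,
        ContDiff ℝ ∞ (F i) ∧ ContDiff ℝ ∞ (G i) ∧ (∀ x, F i (G i x) = x) ∧
        (∀ x, G i (F i x) = x) ∧ (∀ x, S (i, Mix.proj x) = (σ i, Mix.proj (F i x))) ∧
        ∀ x, S.symm (σ i, Mix.proj x) = (i, Mix.proj (G i x))) ∧
      MeasurePreserving S (vol (p + 1) B.d) (vol (p + 1) B.d) ∧
      IsProbabilityMeasure μ ∧ (∀ h, MeasurePreserving (tr h) μ μ) ∧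
      (∀ ρ : Measure (Dual Γ), IsProbabilityMeasure ρ → MeasurePreserving (tr (incl Γ)) ρ ρ →
        ρ = μ) ∧
      ∃ (Θ : Dual Γ → Fin (p + 1) × FT B.d) (Ψ : Fin (p + 1) × FT B.d → Dual Γ)
        (X0 : Set (Dual Γ)) (M0 : Set (Fin (p + 1) × FT B.d)),
        MeasurableSet X0 ∧ MeasurableSet M0 ∧ μ X0ᶜ = 0 ∧ vol (p + 1) B.d M0ᶜ = 0 ∧
        tr (incl Γ) '' X0 = X0 ∧ S '' M0 = M0 ∧ BijOn Θ X0 M0 ∧ InvOn Ψ Θ X0 M0 ∧
        MeasurePreserving Θ μ (vol (p + 1) B.d) ∧ MeasurePreserving Ψ (vol (p + 1) B.d) μ ∧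
        ∀ x ∈ X0, Θ (tr (incl Γ) x) = S (Θ x) := by
  classical
  set σ : Equiv.Perm (Fin (p + 1)) := finRotate (p + 1) with hσ
  set h : Fin (p + 1) → (FT B.d ≃ₜ FT B.d) :=
    fun i => if i = Fin.last p then B.S else Homeomorph.refl _ with hh
  let S : (Fin (p + 1) × FT B.d) ≃ₜ (Fin (p + 1) × FT B.d) :=
    { toFun := fun x => (σ x.1, h x.1 x.2)
      invFun := fun x => (σ.symm x.1, (h (σ.symm x.1)).symm x.2)
      left_inv := fun x => by simp
      right_inv := fun x => by simp
      continuous_toFun := continuous_prod_of_discrete_left.2 fun i =>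
        (continuous_const (y := σ i)).prodMk (h i).continuous
      continuous_invFun := continuous_prod_of_discrete_left.2 fun i =>
        (continuous_const (y := σ.symm i)).prodMk (h (σ.symm i)).symm.continuous }
  have hSval : ∀ i z, S (i, z) = (σ i, h i z) := fun _ _ => rfl
  have hσmp : MeasurePreserving σ (Measure.count : Measure (Fin (p + 1))) Measure.count := by
    refine ⟨Measurable.of_discrete, Measure.ext_of_singleton fun a => ?_⟩
    rw [Measure.map_apply Measurable.of_discrete (measurableSet_singleton a),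
      show σ ⁻¹' {a} = {σ.symm a} by ext b; simp [Equiv.eq_symm_apply], Measure.count_singleton,
      Measure.count_singleton]
  have hSmp : MeasurePreserving S (vol (p + 1) B.d) (vol (p + 1) B.d) := by
    refine MeasurePreserving.smul_measure ?_ _
    refine hσmp.skew_product (g := fun i z => h i z) ?_ (Eventually.of_forall fun i => ?_)
    · exact measurable_from_prod_countable_right fun i => (h i).continuous.measurable
    · simp only [hh]
      split_ifs
      exacts [B.mp.map_eq, Measure.map_id]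
  set c : ℤ := ((p + 1 : ℕ) : ℤ) with hc
  have hadd : ∀ (i : Fin (p + 1)) (z : FT B.d) (a b : Γ),
      ((i : ℕ) : ℤ) • ((a + b : Γ) : UnitAddCircle) +
          (B.Φ z).1 ⟨c • ((a + b : Γ) : UnitAddCircle), hmul _ (a + b).2⟩ =
        (((i : ℕ) : ℤ) • (a : UnitAddCircle) + (B.Φ z).1 ⟨c • (a : UnitAddCircle), hmul _ a.2⟩) +
        (((i : ℕ) : ℤ) • (b : UnitAddCircle) + (B.Φ z).1 ⟨c • (b : UnitAddCircle), hmul _ b.2⟩) := by
    intro i z a b
    rw [show (⟨c • ((a + b : Γ) : UnitAddCircle), hmul _ (a + b).2⟩ : Γ') =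
      ⟨c • (a : UnitAddCircle), hmul _ a.2⟩ + ⟨c • (b : UnitAddCircle), hmul _ b.2⟩ from
      Subtype.ext (smul_add c (a : UnitAddCircle) b), (B.Φ z).2]
    simp only [AddSubgroup.coe_add, smul_add]
    abel
  set Φ : Fin (p + 1) × FT B.d → Dual Γ := fun x =>
    ⟨fun γ => ((x.1 : ℕ) : ℤ) • (γ : UnitAddCircle) +
      (B.Φ x.2).1 ⟨c • (γ : UnitAddCircle), hmul _ γ.2⟩, hadd x.1 x.2⟩ with hΦ
  have hΦm : Measurable Φ := by
    refine measurable_from_prod_countable_right fun i => ?_
    refine Measurable.subtype_mk (measurable_pi_lambda _ fun γ => ?_)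
    exact (((measurable_pi_apply (⟨c • (γ : UnitAddCircle), hmul _ γ.2⟩ : Γ')).comp
      measurable_subtype_coe).comp B.hΦ).const_add (((i : ℕ) : ℤ) • (γ : UnitAddCircle))
  have heq : ∀ᵐ x ∂vol (p + 1) B.d, Φ (S x) = tr (incl Γ) (Φ x) := by
    refine Measure.ae_smul_measure ?_ _
    filter_upwards [Measure.quasiMeasurePreserving_snd.ae B.eqv] with ⟨i, z⟩ hz
    refine Subtype.ext (funext fun γ => ?_)
    show ((σ i : ℕ) : ℤ) • (γ : UnitAddCircle) + (B.Φ (h i z)).1 ⟨c • (γ : UnitAddCircle), _⟩ =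
      ((i : ℕ) : ℤ) • (γ : UnitAddCircle) + (B.Φ z).1 ⟨c • (γ : UnitAddCircle), _⟩ +
        (γ : UnitAddCircle)
    have hval : (σ i : ℕ) = if i = Fin.last p then 0 else (i : ℕ) + 1 := coe_finRotate i
    rw [hval]
    simp only [hh]
    by_cases hi : i = Fin.last p
    · subst hi
      simp only [if_true, hz]
      show _ + ((B.Φ z).1 _ + c • (γ : UnitAddCircle)) = _
      simp only [hc, Fin.val_last, Nat.cast_zero, zero_smul, Nat.cast_add, Nat.cast_one, add_smul,
        one_smul]
      abel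
    · simp only [if_neg hi, Homeomorph.refl_apply, id, Nat.cast_add, Nat.cast_one, add_smul,
        one_smul]
      abel
  have hinj : InjOn Φ ((univ : Set (Fin (p + 1))) ×ˢ B.A) := by
    rintro ⟨i, z⟩ hx ⟨i', z'⟩ hx' he
    have hev : ∀ γ : Γ, ((i : ℕ) : ℤ) • (γ : UnitAddCircle) +
        (B.Φ z).1 ⟨c • (γ : UnitAddCircle), hmul _ γ.2⟩ =
      ((i' : ℕ) : ℤ) • (γ : UnitAddCircle) +
        (B.Φ z').1 ⟨c • (γ : UnitAddCircle), hmul _ γ.2⟩ :=
      fun γ => congrArg (fun χ : Dual Γ => χ.1 γ) he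
    have hzero : ∀ χ : Dual Γ', ∀ δ : Γ', (δ : UnitAddCircle) = 0 → χ.1 δ = 0 := by
      intro χ δ hδ
      rw [show δ = 0 from Subtype.ext hδ]
      have := χ.2 0 0
      rwa [add_zero, left_eq_add] at this
    have hii : i = i' := by
      have h1 := hev ⟨zeta (p + 1), hζ⟩
      rw [hzero _ _ (Mix.zeta_self (Nat.succ_pos p)), hzero _ _ (Mix.zeta_self (Nat.succ_pos p)),
        add_zero, add_zero, ← sub_eq_zero, ← sub_smul, Mix.zsmul_zeta,
        AddCircle.coe_eq_zero_iff] at h1
      obtain ⟨k, hk⟩ := h1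
      have hp : ((p + 1 : ℕ) : ℝ) ≠ 0 := by positivity
      rw [zsmul_one, eq_div_iff hp] at hk
      have hk' : k * ((p + 1 : ℕ) : ℤ) = (i : ℕ) - (i' : ℕ) := by exact_mod_cast hk
      have hki := i.isLt
      have hki' := i'.isLt
      have hk0 : k = 0 := by
        by_contra hk0
        rcases lt_or_gt_of_ne hk0 with hneg | hpos
        · have : k * ((p + 1 : ℕ) : ℤ) ≤ -((p + 1 : ℕ) : ℤ) := by nlinarith
          omega
        · have : ((p + 1 : ℕ) : ℤ) ≤ k * ((p + 1 : ℕ) : ℤ) := by nlinarith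
          omega
      rw [hk0, zero_mul] at hk'
      exact Fin.ext (by omega)
    subst hii
    refine Prod.ext rfl (B.inj hx.2 hx'.2 (Subtype.ext (funext fun δ => ?_)))
    obtain ⟨γ, hγ, hδ⟩ := hsurj δ δ.2
    have h1 := add_left_cancel (hev ⟨γ, hγ⟩)
    rwa [show (⟨c • γ, hmul _ hγ⟩ : Γ') = δ from Subtype.ext hδ] at h1
  have := vol_prob p B.d
  have hAc : vol (p + 1) B.d ((univ : Set (Fin (p + 1))) ×ˢ B.A)ᶜ = 0 := by
    rw [compl_prod_eq_union, compl_univ, empty_prod, empty_union, vol, Measure.smul_apply,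
      Measure.prod_prod, B.hAc, mul_zero, smul_zero]
  obtain ⟨μ, hμp, htr, huniq, hiso⟩ :=
    iso_of_factor (vol (p + 1) B.d) S hSmp Φ hΦm heq _ (MeasurableSet.univ.prod B.hAm) hAc hinj
  refine ⟨S, μ, ⟨σ, fun i => if i = Fin.last p then B.F else id,
    fun i => if i = Fin.last p then B.G else id, fun i => ?_⟩, hSmp, hμp, htr, huniq, hiso⟩
  have hsv : ∀ y, S.symm (σ i, y) = (i, (h i).symm y) := fun y => by
    show (σ.symm (σ i), (h (σ.symm (σ i))).symm y) = _
    rw [Equiv.symm_apply_apply]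
  by_cases hi : i = Fin.last p
  · simp only [if_pos hi, hSval, hsv, hh]
    exact ⟨B.smoothF, B.smoothG, B.FG, B.GF, fun x => by rw [B.hF], fun x => by rw [B.hG]⟩
  · simp only [if_neg hi, hSval, hsv, hh]
    exact ⟨contDiff_id, contDiff_id, fun _ => rfl, fun _ => rfl, fun _ => rfl, fun _ => rfl⟩

lemma countable_tor : {x : UnitAddCircle | IsTor x}.Countable := by
  refine (countable_range (fun a : ℕ × ℤ => a.2 • zeta a.1)).mono fun x hx => ?_
  obtain ⟨o, u, a, -, -, ha⟩ := Mix.tor_rep hx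
  exact ⟨(o, a), ha.symm⟩

lemma countable_of_span {n : ℕ} {Γ : AddSubgroup UnitAddCircle} {v : Fin n → UnitAddCircle}
    (hspan : SpanT Γ v) : (Γ : Set UnitAddCircle).Countable := by
  have hsub : (Γ : Set UnitAddCircle) ⊆ ⋃ a : ℕ × (Fin n → ℤ),
      {γ | γ ∈ Γ ∧ 0 < a.1 ∧ IsTor ((a.1 : ℤ) • γ - comb v a.2)} := fun γ hγ => by
    obtain ⟨m, hm, c, hc⟩ := hspan γ hγ
    exact mem_iUnion.2 ⟨(m, c), hγ, hm, hc⟩
  refine (countable_iUnion fun a => ?_).mono hsub
  by_cases hne : ∃ γ0, γ0 ∈ Γ ∧ 0 < a.1 ∧ IsTor ((a.1 : ℤ) • γ0 - comb v a.2)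
  · obtain ⟨γ0, -, hm, h0⟩ := hne
    refine (countable_tor.image (γ0 + ·)).mono ?_
    intro γ hγ
    refine ⟨γ - γ0, ?_, add_sub_cancel γ0 γ⟩
    refine IsTor.of_zsmul (a := (a.1 : ℤ)) (by exact_mod_cast hm.ne') ?_
    have := hγ.2.2.add (h0.zsmul (-1))
    rwa [neg_one_zsmul, neg_sub, sub_add_sub_cancel, ← smul_sub] at this
  · push Not at hne
    exact countable_empty.mono fun γ hγ => (hne γ hγ.1 hγ.2.1 hγ.2.2).elim

/-- A maximal independent family modulo torsion. -/
lemma exists_basis {Γ : AddSubgroup UnitAddCircle} {k : ℕ} {w : Fin k → UnitAddCircle}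
    (hw : ∀ γ ∈ Γ, ∃ (m : ℤ) (c : Fin k → ℤ), m ≠ 0 ∧ m • γ = ∑ i, c i • w i) :
    ∃ (n : ℕ) (v : Fin n → UnitAddCircle), (∀ a, v a ∈ Γ) ∧ IndepT v ∧ SpanT Γ v := by
  classical
  let P : ℕ → Prop := fun n => ∃ v : Fin n → UnitAddCircle, (∀ a, v a ∈ Γ) ∧ IndepT v
  have h0 : P 0 := ⟨Fin.elim0, fun a => a.elim0, fun c _ => funext fun a => a.elim0⟩
  have hb : ∀ n, P n → n ≤ k := by
    rintro n ⟨v, hv, hind⟩
    choose m c hm hmc using fun a => hw _ (hv a)
    by_contra hcon
    have hnl : ¬ LinearIndependent ℤ c := fun hl => hcon (by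
      simpa using hl.fintype_card_le_finrank)
    obtain ⟨g, hg, i, hi⟩ := Fintype.not_linearIndependent_iff.1 hnl
    have h1 : comb v (fun a => g a * m a) = 0 := by
      have : ∀ a, (g a * m a) • v a = ∑ j, (g a * c a j) • w j := fun a => by
        rw [mul_smul, hmc, Finset.smul_sum]
        exact Finset.sum_congr rfl fun j _ => (mul_smul _ _ _).symm
      simp only [comb, this]
      rw [Finset.sum_comm]
      refine Finset.sum_eq_zero fun j _ => ?_
      rw [← Finset.sum_smul, show ∑ a, g a * c a j = 0 by simpa using congrFun hg j, zero_smul]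
    have h2 := congrFun (hind _ (h1 ▸ IsTor.zero)) i
    exact mul_ne_zero hi (hm i) h2
  set n := Nat.findGreatest P k
  obtain ⟨v, hv, hind⟩ : P n := Nat.findGreatest_spec (Nat.zero_le k) h0
  refine ⟨n, v, hv, hind, fun γ hγ => ?_⟩
  have hnot : ¬ IndepT (Fin.snoc v γ : Fin (n + 1) → UnitAddCircle) := by
    intro hi
    have hP : P (n + 1) := ⟨Fin.snoc v γ, Fin.forall_fin_succ'.2
      ⟨fun i => by simpa using hv i, by simpa using hγ⟩, hi⟩
    exact absurd (Nat.le_findGreatest (hb _ hP) hP) (by omega)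
  simp only [IndepT, not_forall, exists_prop] at hnot
  obtain ⟨d, hd, hd0⟩ := hnot
  have hcomb : comb (Fin.snoc v γ : Fin (n + 1) → UnitAddCircle) d =
      comb v (d ∘ Fin.castSucc) + d (Fin.last n) • γ := by
    simp [comb, Fin.sum_univ_castSucc]
  rw [hcomb] at hd
  have hl : d (Fin.last n) ≠ 0 := by
    intro hl
    rw [hl, zero_smul, add_zero] at hd
    exact hd0 (funext (Fin.forall_fin_succ'.2 ⟨fun i => congrFun (hind _ hd) i, hl⟩))
  refine ⟨(d (Fin.last n)).natAbs, Int.natAbs_pos.2 hl,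
    (-(d (Fin.last n)).sign) • (d ∘ Fin.castSucc), ?_⟩
  have := hd.zsmul (d (Fin.last n)).sign
  convert this using 1
  rw [smul_add, ← mul_smul, Int.sign_mul_self_eq_natAbs]
  simp only [comb, Finset.smul_sum, smul_smul, Pi.smul_apply, smul_eq_mul, neg_mul, neg_smul,
    Finset.sum_neg_distrib, sub_neg_eq_add, Function.comp_apply]
  abel

/-- Every model exists. -/
lemma realize {Γ : AddSubgroup UnitAddCircle} {n : ℕ} {v : Fin n → UnitAddCircle}
    (hv : ∀ a, v a ∈ Γ) (hind : IndepT v) (hspan : SpanT Γ v) (hnfg : ¬ Γ.FG) :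
    ∃ (p : ℕ) (Γ' : AddSubgroup UnitAddCircle), zeta (p + 1) ∈ Γ ∧
      (∀ γ ∈ Γ, ((p + 1 : ℕ) : ℤ) • γ ∈ Γ') ∧
      (∀ δ ∈ Γ', ∃ γ ∈ Γ, ((p + 1 : ℕ) : ℤ) • γ = δ) ∧ Nonempty (Base Γ') ∧
      ({x : UnitAddCircle | x ∈ Γ ∧ IsTor x}.Infinite ∨
        {x : UnitAddCircle | x ∈ Γ ∧ IsTor x} = {0} → p = 0) := by
  classical
  have hcount : Countable Γ := (countable_of_span hspan).to_subtype
  set Tor : Set UnitAddCircle := {x | x ∈ Γ ∧ IsTor x}
  by_cases hinf : Tor.Infinite
  · obtain ⟨r0, hr0⟩ := Mix.proj_surj (d := n) v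
    obtain ⟨e, he⟩ := exists_surjective_nat Γ
    let H : Mix.Grp n :=
      { Γ := Γ, r0 := r0, hv0 := fun a => hr0 ▸ hv a, hind := hr0 ▸ hind, hspan := hr0 ▸ hspan
        hinf := hinf, enum := fun i => (e i : UnitAddCircle), enum_mem := fun i => (e i).2
        enum_surj := fun γ hγ => (he ⟨γ, hγ⟩).imp fun i hi => by rw [hi] }
    have : Countable H.Γ := hcount
    refine ⟨0, Γ, ?_, fun γ hγ => Γ.zsmul_mem hγ _, fun δ hδ => ⟨δ, hδ, one_zsmul δ⟩,
      base_mix H, fun _ => rfl⟩
    have : zeta 1 = 0 := by simpa using Mix.zeta_self (q := 1) one_pos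
    exact this ▸ Γ.zero_mem
  · have hfin : Tor.Finite := not_infinite.1 hinf
    set T : Finset UnitAddCircle := hfin.toFinset
    have hmemT : ∀ x, x ∈ T ↔ x ∈ Γ ∧ IsTor x := fun x => hfin.mem_toFinset
    let G : AddSubgroup UnitAddCircle :=
      { carrier := Tor
        zero_mem' := ⟨Γ.zero_mem, IsTor.zero⟩
        add_mem' := fun ha hb => ⟨Γ.add_mem ha.1 hb.1, ha.2.add hb.2⟩
        neg_mem' := fun ha => ⟨Γ.neg_mem ha.1, by simpa using ha.2.zsmul (-1)⟩ }
    have : Finite G := hfin.to_subtype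
    obtain ⟨p, hp⟩ : ∃ p, Nat.card G = p + 1 :=
      ⟨Nat.card G - 1, by have := Nat.card_pos (α := G); omega⟩
    set c : ℤ := ((p + 1 : ℕ) : ℤ) with hc
    have hkill : ∀ x, x ∈ Γ → IsTor x → c • x = 0 := by
      intro x hx hxt
      have h1 : Nat.card G • (⟨x, hx, hxt⟩ : G) = 0 := card_nsmul_eq_zero'
      have h2 := congrArg Subtype.val h1
      rw [hc, natCast_zsmul, ← hp]
      exact h2
    set Z : Finset UnitAddCircle :=
      (Finset.range (p + 1)).image fun a : ℕ => (a : ℤ) • zeta (p + 1) with hZ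
    have hsub : T ⊆ Z := by
      intro x hx
      obtain ⟨t, rfl⟩ := QuotientAddGroup.mk_surjective x
      have h1 := hkill _ ((hmemT _).1 hx).1 ((hmemT _).1 hx).2
      rw [hc, ← AddCircle.coe_zsmul, AddCircle.coe_eq_zero_iff] at h1
      obtain ⟨b, hb⟩ := h1
      simp only [zsmul_eq_mul, mul_one, Int.cast_natCast] at hb
      refine Finset.mem_image.2 ⟨(b % c).toNat, Finset.mem_range.2 ?_, ?_⟩
      · have := Int.emod_lt_of_pos b (show 0 < c by omega)
        omega
      · rw [Int.toNat_of_nonneg (Int.emod_nonneg _ (by omega))]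
        have e : (b % c) • zeta (p + 1) = b • zeta (p + 1) := by
          conv_rhs => rw [← Int.emod_add_mul_ediv b c, add_smul, mul_comm c, mul_smul,
            Mix.zeta_self (Nat.succ_pos p), smul_zero, add_zero]
        rw [e, Mix.zsmul_zeta]
        congr 1
        rw [hb]
        field_simp
    have hTZ : T = Z := by
      refine Finset.eq_of_subset_of_card_le hsub (le_trans Finset.card_image_le ?_)
      rw [Finset.card_range, ← hp]
      exact le_of_eq (Nat.card_eq_card_finite_toFinset hfin)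
    have hζ : zeta (p + 1) ∈ Γ := by
      rcases Nat.eq_zero_or_pos p with h | h
      · subst h
        have : zeta (0 + 1) = 0 := by simpa using Mix.zeta_self (q := 1) one_pos
        exact this ▸ Γ.zero_mem
      · exact ((hmemT _).1 (hTZ ▸ Finset.mem_image.2
          ⟨1, Finset.mem_range.2 (by omega), one_smul ℤ _⟩)).1
    set f : UnitAddCircle →+ UnitAddCircle := zsmulAddGroupHom c
    set Γ' := Γ.map f
    have hmem' : ∀ δ, δ ∈ Γ' ↔ ∃ γ ∈ Γ, c • γ = δ := fun δ => AddSubgroup.mem_map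
    have hmul : ∀ γ ∈ Γ, c • γ ∈ Γ' := fun γ hγ => (hmem' _).2 ⟨γ, hγ, rfl⟩
    have htf : ∀ x ∈ Γ', ∀ i : ℤ, i ≠ 0 → i • x = 0 → x = 0 := by
      intro x hx i hi h
      obtain ⟨γ, hγ, rfl⟩ := (hmem' x).1 hx
      refine hkill γ hγ ⟨i * c, mul_ne_zero hi (by omega), ?_⟩
      rw [mul_smul, h]
    have hnfg' : ¬ Γ'.FG := by
      rintro ⟨s, hs⟩
      choose! g hg hgc using fun x (hx : x ∈ Γ') => (hmem' x).1 hx
      have hsΓ : ∀ x ∈ s, x ∈ Γ' := fun x hx => hs ▸ AddSubgroup.subset_closure hx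
      apply hnfg
      refine ⟨s.image g ∪ {zeta (p + 1)}, le_antisymm ?_ ?_⟩
      · rw [AddSubgroup.closure_le]
        intro y hy
        simp only [Finset.coe_union, Finset.coe_image, Finset.coe_singleton, mem_union, mem_image,
          mem_singleton_iff] at hy
        rcases hy with ⟨x, hx, rfl⟩ | rfl
        exacts [hg x (hsΓ x hx), hζ]
      · set K := AddSubgroup.closure ((s.image g ∪ {zeta (p + 1)} : Finset UnitAddCircle) :
          Set UnitAddCircle)
        have hKΓ : K ≤ Γ := by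
          rw [AddSubgroup.closure_le]
          intro y hy
          simp only [Finset.coe_union, Finset.coe_image, Finset.coe_singleton, mem_union, mem_image,
            mem_singleton_iff] at hy
          rcases hy with ⟨x, hx, rfl⟩ | rfl
          exacts [hg x (hsΓ x hx), hζ]
        intro γ hγ
        have h1 : c • γ ∈ K.map f := by
          have h2 : Γ' ≤ K.map f := by
            rw [← hs, AddSubgroup.closure_le]
            intro x hx
            exact ⟨g x, AddSubgroup.subset_closure (Finset.mem_coe.2 (Finset.mem_union_left _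
              (Finset.mem_image_of_mem g hx))), hgc x (hsΓ x hx)⟩
          exact h2 (hmul γ hγ)
        obtain ⟨κ, hκ, hκc⟩ := h1
        have h3 : γ - κ ∈ T := (hmemT _).2 ⟨Γ.sub_mem hγ (hKΓ hκ),
          c, by omega, by rw [smul_sub, show c • κ = c • γ from hκc, sub_self]⟩
        rw [hTZ] at h3
        obtain ⟨a, -, ha⟩ := Finset.mem_image.1 h3
        rw [show γ = (γ - κ) + κ by abel, ← ha]
        exact K.add_mem (K.zsmul_mem (AddSubgroup.subset_closure (Finset.mem_coe.2
          (Finset.mem_union_right _ (Finset.mem_singleton_self _)))) _) hκ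
    obtain ⟨r, rfl⟩ : ∃ r, n = r + 1 := by
      refine Nat.exists_eq_succ_of_ne_zero fun hn => hnfg' ⟨∅, ?_⟩
      subst hn
      rw [Finset.coe_empty, AddSubgroup.closure_empty, eq_comm, eq_bot_iff]
      intro x hx
      obtain ⟨γ, hγ, rfl⟩ := (hmem' x).1 hx
      obtain ⟨m, hm, d, hd⟩ := hspan γ hγ
      exact hkill γ hγ (IsTor.of_zsmul (a := (m : ℤ)) (by exact_mod_cast hm.ne')
        (by simpa [comb] using hd))
    have hpsi : ∀ d : Fin (r + 1) → ℤ, Sol.psi (fun a => c • v a) d = c • comb v d := by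
      intro d
      simp only [Sol.psi, comb, Finset.smul_sum]
      exact Finset.sum_congr rfl fun a _ => smul_comm _ _ _
    have hcount' : Countable Γ' := ((countable_of_span hspan).image f).to_subtype
    obtain ⟨e, he⟩ := exists_surjective_nat Γ'
    let H : Sol.Grp r :=
      { Γ := Γ', htf := htf, v0 := fun a => c • v a, hv0 := fun a => hmul _ (hv a)
        hind := fun d hd => hind d ⟨c, by omega, by rw [← hpsi, hd]⟩
        hspan := fun x hx => by
          obtain ⟨γ, hγ, rfl⟩ := (hmem' x).1 hx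
          obtain ⟨m, hm, d, hd⟩ := hspan γ hγ
          refine ⟨m, hm, d, ?_⟩
          have h1 := hkill _ (Γ.sub_mem (Γ.zsmul_mem hγ _)
            (Γ.sum_mem fun a _ => Γ.zsmul_mem (hv a) _)) hd
          rw [smul_sub, sub_eq_zero, smul_comm] at h1
          rw [hpsi, h1]
          rfl
        nfg := hnfg'
        enum := fun i => (e i : UnitAddCircle), enum_mem := fun i => (e i).2
        enum_surj := fun γ hγ => (he ⟨γ, hγ⟩).imp fun i hi => by rw [hi] }
    have : Countable H.Γ := hcount'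
    refine ⟨p, Γ', hζ, hmul, fun δ hδ => (hmem' δ).1 hδ, base_sol H, ?_⟩
    rintro (h | h)
    · exact absurd h hinf
    · have h1 : Nat.card G = 1 := by
        rw [show Nat.card G = Nat.card Tor from rfl, h]; simp
      omega

end Vale.Agent.P109.Gen
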